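import Mathlib

/-!
Definitions for the thresholds of containing a graph in the binomial random graph.
-/

namespace Vale.Agent.P064
open Finset
open scoped Classical

/-- The probability of the graph `G` under `G(n,p)`. -/
noncomputable def gnpWeight (n : ℕ) (p : ℝ) (G : SimpleGraph (Fin n)) : ℝ :=
  p ^ G.edgeSet.ncard * (1 - p) ^ (n.choose 2 - G.edgeSet.ncard)

/-- The probability that `G(n,p)` has a subgraph isomorphic to `F`. -/
noncomputable def probContains {W : Type} (n : ℕ) (p : ℝ) (F : SimpleGraph W) : ℝ :=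
  ∑ G : SimpleGraph (Fin n), if 0 < G.copyCount F then gnpWeight n p G else 0

/-- The expected number of subgraphs of `G(n,p)` isomorphic to `F`. -/
noncomputable def expCopies {W : Type} (n : ℕ) (p : ℝ) (F : SimpleGraph W) : ℝ :=
  ∑ G : SimpleGraph (Fin n), gnpWeight n p G * (G.copyCount F : ℝ)

/-- The threshold `p_c(n,H)`. -/
noncomputable def pc {W : Type} (n : ℕ) (H : SimpleGraph W) : ℝ :=
  sInf {p : ℝ | p ∈ Set.Icc (0 : ℝ) 1 ∧ 1 / 2 ≤ probContains n p H}

/-- The expectation threshold `p_E(n,H)`. -/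
noncomputable def pE {W : Type} (n : ℕ) (H : SimpleGraph W) : ℝ :=
  sInf {p : ℝ | p ∈ Set.Icc (0 : ℝ) 1 ∧ ∀ F : H.Subgraph, 1 / 2 ≤ expCopies n p F.coe}

/-- The modified expectation threshold `p̃_E(n,H)`. -/
noncomputable def pEtilde {W : Type} [Fintype W] (n : ℕ) (H : SimpleGraph W) : ℝ :=
  sInf {p : ℝ | p ∈ Set.Icc (0 : ℝ) 1 ∧
    ∀ F : H.Subgraph, (H.copyCount F.coe : ℝ) / 2 ≤ expCopies n p F.coe}

end Vale.Agent.P064
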