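import Mathlib

/-!
Spreadness of a symmetric family from the symmetric (orbit) expectation threshold.
A finite group `Γ` acts on a finite type `X`; `pr Γ S A` is the probability that a uniformly
random translate of `S` lies in `A`. The hypothesis `Thin Γ Q H` says that every subset of `H` is
fixed by at most a `Q ^ card` fraction of `Γ`, i.e. every orbit has at least `Q ^ (-card)` members.
-/

namespace Vale.Agent.P064
open Finset
open scoped Pointwise

variable (Γ : Type*) [Group Γ] [Fintype Γ] {X : Type*} [DecidableEq X] [MulAction Γ X]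

/-- Number of group elements sending `S` into `A`. -/
def cnt (S A : Finset X) : ℕ := ((univ : Finset Γ).filter fun g => g • S ⊆ A).card

/-- Probability that a uniformly random translate of `S` lies in `A`. -/
noncomputable def pr (S A : Finset X) : ℝ := (cnt Γ S A : ℝ) / Fintype.card Γ

/-- Every subset of `H` has at least `Q ^ (-card)` distinct translates. -/
def Thin (Q : ℝ) (H : Finset X) : Prop :=
  ∀ S : Finset X, S ⊆ H →
    (((univ : Finset Γ).filter fun g => g • S = S).card : ℝ) / Fintype.card Γ ≤ Q ^ S.card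

variable {Γ}

lemma pr_nonneg (S A : Finset X) : 0 ≤ pr Γ S A := by
  unfold pr; positivity

lemma card_pos_real : (0 : ℝ) < Fintype.card Γ := by exact_mod_cast Fintype.card_pos

lemma pr_smul (g : Γ) (S A : Finset X) : pr Γ (g • S) A = pr Γ S A := by
  classical
  unfold pr cnt
  congr 2
  refine card_equiv (Equiv.mulRight g) fun a => ?_
  simp [mul_smul]

lemma pr_eq_zero_or (S A : Finset X) :
    pr Γ S A = 0 ∨ ∃ g : Γ, g • S ⊆ A := by
  classical
  by_cases h : ∃ g : Γ, g • S ⊆ A
  · exact Or.inr h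
  · left
    push Not at h
    have : ((univ : Finset Γ).filter fun g => g • S ⊆ A) = ∅ :=
      filter_eq_empty_iff.2 fun g _ => h g
    simp [pr, cnt, this]

lemma pr_empty (A : Finset X) : pr Γ (∅ : Finset X) A = 1 := by
  unfold pr cnt
  have : ((univ : Finset Γ).filter fun g => g • (∅ : Finset X) ⊆ A) = univ :=
    filter_true_of_mem fun g _ => by simp
  rw [this, card_univ, div_self card_pos_real.ne']

lemma fib_le (S T : Finset X) :
    ((univ : Finset Γ).filter fun g => g • S = T).card
      ≤ ((univ : Finset Γ).filter fun g => g • T = T).card := by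
  classical
  by_cases h : ∃ g : Γ, g • S = T
  · obtain ⟨g₀, hg₀⟩ := h
    refine card_le_card_of_injOn (fun g => g * g₀⁻¹) ?_ ?_
    · intro g hg
      simp only [coe_filter, mem_univ, true_and, Set.mem_ofPred_eq] at hg ⊢
      rw [mul_smul, ← hg₀, inv_smul_smul, hg, hg₀]
    · intro a _ b _ hab
      exact mul_right_cancel hab
  · push Not at h
    have : ((univ : Finset Γ).filter fun g => g • S = T) = ∅ :=
      filter_eq_empty_iff.2 fun g _ => h g
    simp [this]

/-- The free bound. -/
lemma pr_le_choose {Q : ℝ} {H A : Finset X} (hH : Thin Γ Q H) (hA : A ⊆ H) (S : Finset X) :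
    pr Γ S A ≤ (A.card.choose S.card : ℝ) * Q ^ S.card := by
  classical
  have hsub : ((univ : Finset Γ).filter fun g => g • S ⊆ A)
      ⊆ (A.powersetCard S.card).biUnion
          (fun T => (univ : Finset Γ).filter fun g => g • S = T) := by
    intro g hg
    simp only [mem_filter, mem_univ, true_and] at hg
    simp only [mem_biUnion, mem_powersetCard, mem_filter, mem_univ, true_and]
    exact ⟨g • S, ⟨hg, card_smul_finset g S⟩, rfl⟩
  have h1 := (card_le_card hsub).trans card_biUnion_le
  have h2 : (cnt Γ S A : ℝ) ≤ ∑ T ∈ A.powersetCard S.card,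
      (((univ : Finset Γ).filter fun g => g • T = T).card : ℝ) := by
    unfold cnt
    calc _ ≤ ((∑ T ∈ A.powersetCard S.card,
          ((univ : Finset Γ).filter fun g => g • S = T).card : ℕ) : ℝ) := by exact_mod_cast h1
      _ ≤ _ := by
          push_cast
          exact sum_le_sum fun T _ => by exact_mod_cast fib_le (Γ := Γ) S T
  calc pr Γ S A ≤ (∑ T ∈ A.powersetCard S.card,
      (((univ : Finset Γ).filter fun g => g • T = T).card : ℝ)) / Fintype.card Γ := by
        unfold pr; gcongr
    _ = ∑ T ∈ A.powersetCard S.card,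
      (((univ : Finset Γ).filter fun g => g • T = T).card : ℝ) / Fintype.card Γ := by
        rw [sum_div]
    _ ≤ ∑ T ∈ A.powersetCard S.card, Q ^ S.card := by
        refine sum_le_sum fun T hT => ?_
        rw [mem_powersetCard] at hT
        rw [← hT.2]
        exact hH T (hT.1.trans hA)
    _ = _ := by simp [card_powersetCard]

/-- The second moment of a translate as an average over translates. -/
lemma pr_sq (S A : Finset X) :
    pr Γ S A ^ 2 = (∑ e : Γ, pr Γ (S ∪ e • S) A) / Fintype.card Γ := by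
  classical
  have key : (cnt Γ S A) * (cnt Γ S A) = ∑ e : Γ, cnt Γ (S ∪ e • S) A := by
    unfold cnt
    rw [card_eq_sum_ones, sum_filter, sum_mul_sum]
    simp only [card_eq_sum_ones, sum_filter]
    rw [sum_comm (γ := Γ) (f := fun e g => if g • (S ∪ e • S) ⊆ A then 1 else 0)]
    refine sum_congr rfl fun g _ => ?_
    rw [← Fintype.sum_equiv (Equiv.mulLeft g)
      (fun e => (if g • S ⊆ A then 1 else 0) * (if (g * e) • S ⊆ A then 1 else 0))
      (fun d => (if g • S ⊆ A then 1 else 0) * (if d • S ⊆ A then 1 else 0)) (fun e => rfl)]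
    refine sum_congr rfl fun e _ => ?_
    simp only [smul_finset_union, union_subset_iff, ← mul_smul]
    by_cases h1 : g • S ⊆ A <;> by_cases h2 : (g * e) • S ⊆ A <;> simp [h1, h2]
  have key' : (cnt Γ S A : ℝ) * (cnt Γ S A : ℝ) = ∑ e : Γ, (cnt Γ (S ∪ e • S) A : ℝ) := by
    exact_mod_cast key
  unfold pr
  rw [← sum_div, ← key', div_pow, div_div, sq, sq]

/-- Average of `x ^ |S ∩ e • S|` is at most the moment sum. -/
lemma avg_pow_le (S : Finset X) {x : ℝ} (hx : 0 ≤ x) :
    (∑ e : Γ, x ^ (S ∩ e • S).card) / Fintype.card Γ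
      ≤ ∑ T ∈ S.powerset, x ^ T.card * pr Γ T S := by
  classical
  have h1 : ∀ e : Γ, x ^ (S ∩ e • S).card
      ≤ ∑ T ∈ S.powerset, if T ⊆ e • S then x ^ T.card else 0 := by
    intro e
    refine le_trans ?_ (single_le_sum (f := fun T => if T ⊆ e • S then x ^ T.card else 0)
      (fun T _ => ?_) (mem_powerset.2 (inter_subset_left : S ∩ e • S ⊆ S)))
    · simp [inter_subset_right]
    · split_ifs <;> positivity
  calc (∑ e : Γ, x ^ (S ∩ e • S).card) / Fintype.card Γ
      ≤ (∑ e : Γ, ∑ T ∈ S.powerset, if T ⊆ e • S then x ^ T.card else 0) / Fintype.card Γ := by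
        gcongr with e; exact h1 e
    _ = _ := by
        rw [sum_comm, sum_div]
        refine sum_congr rfl fun T _ => ?_
        have : ((univ : Finset Γ).filter fun e => T ⊆ e • S).card
            = ((univ : Finset Γ).filter fun e => e • T ⊆ S).card := by
          refine card_equiv (Equiv.inv Γ) fun a => ?_
          simp [subset_smul_finset_iff]
        rw [← sum_filter, sum_const, nsmul_eq_mul, this]
        unfold pr cnt
        ring

/-- One halving step: from level `L` to level `L + G`. -/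
lemma halve {A : Finset X} {b L G Q : ℝ} (hQ : 0 < Q) (hL : 0 < L) (hG : 0 < G)
    (hlow : ∀ S, pr Γ S A ≤ Real.exp b * (L * Q) ^ S.card)
    (hmom : ∀ S, S ⊆ A →
      (∑ T ∈ S.powerset, (1 / ((L + G) * Q)) ^ T.card * pr Γ T S)
        ≤ Real.exp (G / (L + G) * S.card)) :
    ∀ S, pr Γ S A ≤ Real.exp (b / 2) * ((L + G) * Q) ^ S.card := by
  classical
  set L' := L + G with hL'
  have hL'0 : 0 < L' := by positivity
  have hLQ : 0 < L' * Q := by positivity
  obtain ⟨S₀, hS₀, hmax⟩ := exists_max_image A.powerset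
    (fun S => pr Γ S A / (L' * Q) ^ S.card) ⟨∅, empty_mem_powerset A⟩
  rw [mem_powerset] at hS₀
  set R := pr Γ S₀ A / (L' * Q) ^ S₀.card with hR
  have hR0 : 0 ≤ R := div_nonneg (pr_nonneg _ _) (by positivity)
  have hall : ∀ U, pr Γ U A ≤ R * (L' * Q) ^ U.card := by
    intro U
    rcases pr_eq_zero_or (Γ := Γ) U A with h | ⟨g, hg⟩
    · rw [h]; positivity
    · have := hmax (g • U) (mem_powerset.2 hg)
      rw [pr_smul, card_smul_finset] at this
      rwa [div_le_iff₀ (pow_pos hLQ _)] at this
  suffices hRb : R ≤ Real.exp (b / 2) by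
    intro S
    exact (hall S).trans (mul_le_mul_of_nonneg_right hRb (by positivity))
  -- the maximiser is controlled by its own moment sum
  have hpr : pr Γ S₀ A = R * (L' * Q) ^ S₀.card := by
    rw [hR, div_mul_cancel₀]; exact (pow_pos hLQ _).ne'
  have hM : R * R ≤ R * Real.exp (G / L' * S₀.card) := by
    have hterm : ∀ e : Γ, pr Γ (S₀ ∪ e • S₀) A
        ≤ R * ((L' * Q) ^ S₀.card) ^ 2 * (1 / (L' * Q)) ^ (S₀ ∩ e • S₀).card := by
      intro e
      refine (hall _).trans (le_of_eq ?_)
      have hc := card_union_add_card_inter S₀ (e • S₀)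
      rw [card_smul_finset] at hc
      have hpow : (L' * Q) ^ (S₀ ∪ e • S₀).card * (L' * Q) ^ (S₀ ∩ e • S₀).card
          = ((L' * Q) ^ S₀.card) ^ 2 := by
        rw [← pow_add, ← pow_mul, hc]; ring_nf
      rw [mul_assoc, ← hpow, one_div, inv_pow, mul_assoc,
        mul_inv_cancel₀ (pow_ne_zero _ hLQ.ne'), mul_one]
    have hsq : pr Γ S₀ A ^ 2 ≤ R * ((L' * Q) ^ S₀.card) ^ 2 * Real.exp (G / L' * S₀.card) := by
      rw [pr_sq]
      calc (∑ e : Γ, pr Γ (S₀ ∪ e • S₀) A) / Fintype.card Γ
          ≤ (∑ e : Γ, R * ((L' * Q) ^ S₀.card) ^ 2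
              * (1 / (L' * Q)) ^ (S₀ ∩ e • S₀).card) / Fintype.card Γ := by
            gcongr with e; exact hterm e
        _ = R * ((L' * Q) ^ S₀.card) ^ 2
              * ((∑ e : Γ, (1 / (L' * Q)) ^ (S₀ ∩ e • S₀).card) / Fintype.card Γ) := by
            rw [← mul_sum, mul_div_assoc]
        _ ≤ _ := by
            refine mul_le_mul_of_nonneg_left ?_ (by positivity)
            exact (avg_pow_le S₀ (by positivity)).trans (hmom S₀ hS₀)
    rw [hpr, mul_pow] at hsq
    have hpos : 0 < ((L' * Q) ^ S₀.card) ^ 2 := by positivity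
    nlinarith [hsq, hpos]
  have hMb : R ≤ Real.exp b * Real.exp (-(G / L' * S₀.card)) := by
    have h1 : pr Γ S₀ A ≤ Real.exp b * (L * Q) ^ S₀.card := hlow S₀
    rw [hpr] at h1
    have hratio : L / L' ≤ Real.exp (-(G / L')) := by
      have h2 := Real.add_one_le_exp (-(G / L'))
      have : L / L' = -(G / L') + 1 := by field_simp; rw [hL']; ring
      linarith
    have h3 : R ≤ Real.exp b * (L / L') ^ S₀.card := by
      have hp : 0 < (L' * Q) ^ S₀.card := pow_pos hLQ _
      rw [div_pow, mul_div_assoc', le_div_iff₀ (pow_pos hL'0 _)]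
      refine le_of_mul_le_mul_right ?_ (pow_pos hQ S₀.card)
      calc R * L' ^ S₀.card * Q ^ S₀.card = R * (L' * Q) ^ S₀.card := by rw [mul_pow]; ring
        _ ≤ Real.exp b * (L * Q) ^ S₀.card := h1
        _ = _ := by rw [mul_pow]; ring
    refine h3.trans (mul_le_mul_of_nonneg_left ?_ (Real.exp_pos b).le)
    calc (L / L') ^ S₀.card ≤ Real.exp (-(G / L')) ^ S₀.card :=
          pow_le_pow_left₀ (by positivity) hratio _
      _ = _ := by rw [← Real.exp_nat_mul]; ring_nf
  rcases hR0.eq_or_lt with h | h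
  · rw [← h]; exact (Real.exp_pos _).le
  · have h4 : R ≤ Real.exp (G / L' * S₀.card) := le_of_mul_le_mul_left hM h
    have h5 : R * R ≤ Real.exp b := by
      calc R * R ≤ Real.exp (G / L' * S₀.card)
            * (Real.exp b * Real.exp (-(G / L' * S₀.card))) :=
            mul_le_mul h4 hMb hR0 (Real.exp_pos _).le
        _ = Real.exp b := by
            rw [mul_left_comm, ← Real.exp_add, add_neg_cancel, Real.exp_zero, mul_one]
    have h6 : Real.exp b = Real.exp (b / 2) * Real.exp (b / 2) := by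
      rw [← Real.exp_add]; ring_nf
    rw [h6] at h5
    nlinarith [Real.exp_pos (b / 2)]

/-- Iterating the halving step. -/
lemma spread_of_moments {Q G : ℝ} {H A : Finset X} (hH : Thin Γ Q H) (hA : A ⊆ H)
    (hQ : 0 < Q) (hG : 0 < G) (k : ℕ)
    (hmom : ∀ L : ℝ, 1 ≤ L → L ≤ 1 + k * G → ∀ S, S ⊆ A →
      (∑ T ∈ S.powerset, (1 / (L * Q)) ^ T.card * pr Γ T S) ≤ Real.exp (G / L * S.card))
    (S : Finset X) (hS : A.card ≤ S.card * 2 ^ k) :
    pr Γ S A ≤ (3 * (1 + k * G) * Q) ^ S.card := by
  classical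
  have iter : ∀ i : ℕ, i ≤ k → ∀ S : Finset X,
      pr Γ S A ≤ Real.exp ((A.card : ℝ) / 2 ^ i) * ((1 + i * G) * Q) ^ S.card := by
    intro i
    induction i with
    | zero =>
      intro _ S
      refine (pr_le_choose hH hA S).trans ?_
      simp only [pow_zero, div_one, Nat.cast_zero, zero_mul, add_zero, one_mul]
      refine mul_le_mul_of_nonneg_right ?_ (by positivity)
      calc (A.card.choose S.card : ℝ) ≤ (2 : ℝ) ^ A.card := by
            exact_mod_cast Nat.choose_le_two_pow _ _
        _ ≤ Real.exp 1 ^ A.card := by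
            refine pow_le_pow_left₀ (by norm_num) ?_ _
            linarith [Real.add_one_le_exp (1 : ℝ)]
        _ = _ := by rw [← Real.exp_nat_mul, mul_one]
    | succ i ih =>
      intro hi S
      have hi' : (i : ℝ) + 1 ≤ k := by exact_mod_cast hi
      have hLG : (1 + (i : ℝ) * G) + G = 1 + ((i + 1 : ℕ) : ℝ) * G := by push_cast; ring
      have := halve (Γ := Γ) (A := A) (b := (A.card : ℝ) / 2 ^ i) (L := 1 + i * G) (G := G) hQ
        (by positivity) hG (ih (by omega)) (fun S hSA =>
          hmom _ (by nlinarith) (by nlinarith) S hSA) S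
      rw [hLG] at this
      convert this using 3
      rw [pow_succ, div_div]
  refine (iter k le_rfl S).trans ?_
  have h1 : Real.exp ((A.card : ℝ) / 2 ^ k) ≤ (3 : ℝ) ^ S.card := by
    calc Real.exp ((A.card : ℝ) / 2 ^ k) ≤ Real.exp (S.card : ℝ) := by
          refine Real.exp_le_exp.2 ?_
          rw [div_le_iff₀ (by positivity)]
          exact_mod_cast hS
      _ = Real.exp 1 ^ S.card := by rw [← Real.exp_nat_mul, mul_one]
      _ ≤ _ := pow_le_pow_left₀ (Real.exp_pos 1).le Real.exp_one_lt_three.le _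
  rw [mul_assoc 3, mul_pow 3]
  exact mul_le_mul_of_nonneg_right h1 (by positivity)

/-- Spreadness with a squared logarithm of the size ratio. -/
theorem spread_sq {Q : ℝ} {H A : Finset X} (hH : Thin Γ Q H) (hA : A ⊆ H) (hQ : 0 < Q)
    (k : ℕ) (S : Finset X) (hS : A.card ≤ S.card * 2 ^ k) :
    pr Γ S A ≤ (21 * ((k : ℝ) + 1) ^ 2 * Q) ^ S.card := by
  classical
  set G : ℝ := 4 * k + 2 with hG
  have hGp : 0 < G := by positivity
  have hmom : ∀ L : ℝ, 1 ≤ L → L ≤ 1 + k * G → ∀ U, U ⊆ A →
      (∑ T ∈ U.powerset, (1 / (L * Q)) ^ T.card * pr Γ T U) ≤ Real.exp (G / L * U.card) := by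
    intro L hL1 hL2 U hU
    have hL0 : 0 < L := by linarith
    set s := Real.sqrt L with hs
    have hs0 : 0 < s := Real.sqrt_pos.2 hL0
    have hss : s * s = L := Real.mul_self_sqrt hL0.le
    calc (∑ T ∈ U.powerset, (1 / (L * Q)) ^ T.card * pr Γ T U)
        ≤ ∑ T ∈ U.powerset, (1 / L) ^ T.card * (U.card.choose T.card : ℝ) := by
          refine sum_le_sum fun T _ => ?_
          refine (mul_le_mul_of_nonneg_left (pr_le_choose hH (hU.trans hA) T)
            (by positivity)).trans (le_of_eq ?_)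
          simp only [one_div, mul_inv, mul_pow, inv_pow]
          field_simp
      _ = ∑ t ∈ range (U.card + 1), ((U.card.choose t : ℝ) * (1 / s) ^ t) ^ 2 := by
          rw [sum_powerset]
          refine sum_congr rfl fun t _ => ?_
          rw [sum_congr rfl (g := fun _ => (1 / L) ^ t * (U.card.choose t : ℝ)) (fun T hT => by
            rw [(mem_powersetCard.1 hT).2]), sum_const, card_powersetCard, nsmul_eq_mul,
            ← hss, one_div, one_div, mul_inv, mul_pow]
          ring
      _ ≤ (∑ t ∈ range (U.card + 1), (U.card.choose t : ℝ) * (1 / s) ^ t) ^ 2 :=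
          sum_sq_le_sq_sum_of_nonneg (fun t _ => by positivity)
      _ = ((1 / s + 1) ^ U.card) ^ 2 := by
          rw [add_pow]
          congr 1
          refine sum_congr rfl fun t _ => ?_
          simp only [one_pow, mul_one]; ring
      _ ≤ Real.exp (1 / s * U.card) ^ 2 := by
          refine pow_le_pow_left₀ (by positivity) ?_ 2
          rw [mul_comm, Real.exp_nat_mul]
          exact pow_le_pow_left₀ (by positivity) (Real.add_one_le_exp _) _
      _ ≤ _ := by
          rw [← Real.exp_nat_mul]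
          refine Real.exp_le_exp.2 ?_
          have h2 : 2 * (1 / s) ≤ G / L := by
            rw [le_div_iff₀ hL0, ← hss]
            field_simp
            nlinarith
          calc ((2 : ℕ) : ℝ) * (1 / s * U.card) = 2 * (1 / s) * U.card := by push_cast; ring
            _ ≤ _ := mul_le_mul_of_nonneg_right h2 (Nat.cast_nonneg _)
  refine (spread_of_moments hH hA hQ hGp k hmom S hS).trans
    (pow_le_pow_left₀ (by positivity) (mul_le_mul_of_nonneg_right ?_ hQ.le) _)
  rw [hG]; nlinarith

/-- Spreadness with one logarithm times an iterated logarithm squared. -/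
theorem spread_log {Q : ℝ} {H : Finset X} (hH : Thin Γ Q H) (hQ : 0 < Q)
    (K l : ℕ) (hK : H.card ≤ 2 ^ K) (hl : K + 1 ≤ 2 ^ l) (S : Finset X) :
    pr Γ S H ≤ (27804 * ((K : ℝ) + 1) * ((l : ℝ) + 1) ^ 2 * Q) ^ S.card := by
  classical
  rcases S.eq_empty_or_nonempty with rfl | hSne
  · simp [pr_empty]
  obtain ⟨j, hj⟩ : ∃ j : ℕ, j = 3 * l + 20 := ⟨_, rfl⟩
  set G₁ : ℝ := 21 * ((j : ℝ) + 1) ^ 2 with hG₁
  set B : ℝ := 21 * ((K : ℝ) + 1) ^ 2 with hB
  set G : ℝ := G₁ + (5 + 2 * l) with hG
  have hG₁1 : 1 ≤ G₁ := by rw [hG₁]; nlinarith [Nat.cast_nonneg (α := ℝ) j]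
  have hB1 : 1 ≤ B := by rw [hB]; nlinarith [Nat.cast_nonneg (α := ℝ) K]
  have hGp : 0 < G := by positivity
  have hlogB : Real.log B ≤ 5 + 2 * l := by
    have hK2 : (K : ℝ) + 1 ≤ 2 ^ l := by exact_mod_cast hl
    have : B ≤ (2 : ℝ) ^ (5 + 2 * l) := by
      rw [pow_add, mul_comm 2 l, pow_mul, hB]
      exact mul_le_mul (by norm_num) (pow_le_pow_left₀ (by positivity) hK2 2) (by positivity)
        (by positivity)
    calc Real.log B ≤ Real.log ((2 : ℝ) ^ (5 + 2 * l)) := Real.log_le_log (by linarith) this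
      _ = ((5 + 2 * l : ℕ) : ℝ) * Real.log 2 := by rw [Real.log_pow]
      _ ≤ ((5 + 2 * l : ℕ) : ℝ) * 1 :=
          mul_le_mul_of_nonneg_left (by linarith [Real.log_two_lt_d9]) (Nat.cast_nonneg _)
      _ = 5 + 2 * l := by push_cast; ring
  have hl0 : (0 : ℝ) ≤ l := Nat.cast_nonneg _
  have hjc : (j : ℝ) = 3 * (l : ℝ) + 20 := by rw [hj]; push_cast; ring
  have hGb : G ≤ 9268 * ((l : ℝ) + 1) ^ 2 := by
    rw [hG, hG₁, hjc]; nlinarith
  have hj2 : 1 + K * G ≤ (2 : ℝ) ^ j := by
    have hK2 : (K : ℝ) + 1 ≤ 2 ^ l := by exact_mod_cast hl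
    have hl2 : (l : ℝ) + 1 ≤ 2 ^ l := by
      exact_mod_cast (Nat.lt_two_pow_self (n := l))
    have hpow : (2 : ℝ) ^ j = (2 : ℝ) ^ (20 : ℕ) * ((2 : ℝ) ^ l) ^ 3 := by
      rw [hj, ← pow_mul, ← pow_add]; congr 1; ring
    have h20 : (16384 : ℝ) ≤ (2 : ℝ) ^ (20 : ℕ) := by norm_num
    have hsq : ((l : ℝ) + 1) ^ 2 ≤ ((2 : ℝ) ^ l) ^ 2 := pow_le_pow_left₀ (by positivity) hl2 2
    have hG1' : 1 ≤ G := by linarith
    rw [hpow]
    generalize (2 : ℝ) ^ l = P at hK2 hl2 hsq ⊢
    have hP : 1 ≤ P := by linarith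
    calc 1 + (K : ℝ) * G ≤ ((K : ℝ) + 1) * G := by nlinarith
      _ ≤ P * (16384 * P ^ 2) := by
          refine mul_le_mul hK2 (hGb.trans ?_) hGp.le (by linarith)
          exact mul_le_mul (by norm_num) hsq (by positivity) (by norm_num)
      _ = 16384 * P ^ 3 := by ring
      _ ≤ _ := mul_le_mul_of_nonneg_right h20 (by positivity)
  have hmom : ∀ L : ℝ, 1 ≤ L → L ≤ 1 + K * G → ∀ U, U ⊆ H →
      (∑ T ∈ U.powerset, (1 / (L * Q)) ^ T.card * pr Γ T U) ≤ Real.exp (G / L * U.card) := by
    intro L hL1 hL2 U hU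
    have hL0 : 0 < L := by linarith
    set E : ℝ := Real.exp ((U.card : ℝ) / 2 ^ j * Real.log B) with hE
    have hlog0 : 0 ≤ Real.log B := Real.log_nonneg hB1
    have hE1 : 1 ≤ E := Real.one_le_exp (by positivity)
    have hterm : ∀ T ∈ U.powerset, pr Γ T U ≤ E * (G₁ * Q) ^ T.card := by
      intro T _
      rcases T.eq_empty_or_nonempty with rfl | hTne
      · rw [pr_empty, card_empty, pow_zero, mul_one]; exact hE1
      by_cases hT : U.card ≤ T.card * 2 ^ j
      · exact (spread_sq hH hU hQ j T hT).trans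
          (le_mul_of_one_le_left (by positivity) hE1)
      · push Not at hT
        have hUK : U.card ≤ T.card * 2 ^ K :=
          ((card_le_card hU).trans hK).trans (Nat.le_mul_of_pos_left _ hTne.card_pos)
        refine (spread_sq hH hU hQ K T hUK).trans ?_
        rw [← hB, mul_pow B Q, mul_pow G₁ Q]
        have hBt : B ^ T.card ≤ E := by
          rw [hE]
          calc B ^ T.card = Real.exp ((T.card : ℝ) * Real.log B) := by
                rw [Real.exp_nat_mul, Real.exp_log (by linarith)]
            _ ≤ _ := by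
                refine Real.exp_le_exp.2 (mul_le_mul_of_nonneg_right ?_ hlog0)
                rw [le_div_iff₀ (by positivity)]
                exact_mod_cast hT.le
        have : (1 : ℝ) ≤ G₁ ^ T.card := one_le_pow₀ hG₁1
        calc B ^ T.card * Q ^ T.card ≤ E * Q ^ T.card :=
              mul_le_mul_of_nonneg_right hBt (by positivity)
          _ ≤ E * (G₁ ^ T.card * Q ^ T.card) := by
              refine mul_le_mul_of_nonneg_left ?_ (by positivity)
              exact le_mul_of_one_le_left (by positivity) this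
    calc (∑ T ∈ U.powerset, (1 / (L * Q)) ^ T.card * pr Γ T U)
        ≤ ∑ T ∈ U.powerset, E * (G₁ / L) ^ T.card := by
          refine sum_le_sum fun T hT => ?_
          refine (mul_le_mul_of_nonneg_left (hterm T hT) (by positivity)).trans (le_of_eq ?_)
          rw [mul_left_comm, ← mul_pow]
          congr 2
          field_simp
      _ = E * (G₁ / L + 1) ^ U.card := by
          rw [← mul_sum, ← sum_pow_mul_eq_add_pow (G₁ / L) (1 : ℝ) U]
          simp
      _ ≤ E * Real.exp ((U.card : ℝ) * (G₁ / L)) := by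
          refine mul_le_mul_of_nonneg_left ?_ (by positivity)
          rw [Real.exp_nat_mul]
          exact pow_le_pow_left₀ (by positivity) (Real.add_one_le_exp _) _
      _ ≤ _ := by
          rw [hE, ← Real.exp_add]
          refine Real.exp_le_exp.2 ?_
          have h1 : Real.log B / 2 ^ j ≤ (5 + 2 * l) / L :=
            div_le_div₀ (by positivity) hlogB hL0 (hL2.trans hj2)
          calc (U.card : ℝ) / 2 ^ j * Real.log B + (U.card : ℝ) * (G₁ / L)
              = (U.card : ℝ) * (Real.log B / 2 ^ j + G₁ / L) := by ring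
            _ ≤ (U.card : ℝ) * ((5 + 2 * l) / L + G₁ / L) :=
                mul_le_mul_of_nonneg_left (by linarith) (Nat.cast_nonneg _)
            _ = G / L * U.card := by rw [hG]; ring
  have hS : H.card ≤ S.card * 2 ^ K :=
    hK.trans (Nat.le_mul_of_pos_left _ hSne.card_pos)
  refine (spread_of_moments hH subset_rfl hQ hGp K hmom S hS).trans
    (pow_le_pow_left₀ (by positivity) (mul_le_mul_of_nonneg_right ?_ hQ.le) _)
  have : (1 : ℝ) ≤ ((l : ℝ) + 1) ^ 2 := one_le_pow₀ (by linarith [Nat.cast_nonneg (α := ℝ) l])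
  nlinarith [Nat.cast_nonneg (α := ℝ) K, mul_le_mul_of_nonneg_left hGb (Nat.cast_nonneg (α := ℝ) K)]

end Vale.Agent.P064
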