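import Mathlib

/-!
Random subsets of a finite type and the fragment iteration: a spread family of sets of size at
most `2 ^ k - 1` has one of its members inside a random set of density about `64 k` times the
spread with probability at least three quarters.
-/

namespace Vale.Agent.P064
open Finset

set_option linter.unusedSectionVars false

variable {X : Type*} [DecidableEq X]

/-- Weight of `W` as a `p`-random subset of `U`. -/
noncomputable def wt (p : ℝ) (U W : Finset X) : ℝ := p ^ W.card * (1 - p) ^ (U.card - W.card)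

lemma wt_nonneg {p : ℝ} (hp0 : 0 ≤ p) (hp1 : p ≤ 1) (U W : Finset X) : 0 ≤ wt p U W := by
  unfold wt
  have : 0 ≤ 1 - p := by linarith
  positivity

lemma wt_insert_in {p : ℝ} {a : X} {U W : Finset X} (ha : a ∉ U) (hW : W ⊆ U) :
    wt p (insert a U) (insert a W) = p * wt p U W := by
  have : a ∉ W := fun h => ha (hW h)
  rw [wt, wt, card_insert_of_notMem ha, card_insert_of_notMem this, Nat.succ_sub_succ, pow_succ]
  ring

lemma wt_insert_out {p : ℝ} {a : X} {U W : Finset X} (ha : a ∉ U) (hW : W ⊆ U) :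
    wt p (insert a U) W = (1 - p) * wt p U W := by
  rw [wt, wt, card_insert_of_notMem ha, Nat.succ_sub (card_le_card hW), pow_succ]
  ring

/-- Expectation over a `p`-random subset of `U`. -/
noncomputable def ex (p : ℝ) (U : Finset X) (f : Finset X → ℝ) : ℝ :=
  ∑ W ∈ U.powerset, wt p U W * f W

lemma ex_empty (p : ℝ) (f : Finset X → ℝ) : ex p ∅ f = f ∅ := by simp [ex, wt]

lemma ex_insert {p : ℝ} {a : X} {U : Finset X} (ha : a ∉ U) (f : Finset X → ℝ) :
    ex p (insert a U) f
      = (1 - p) * ex p U f + p * ex p U (fun W => f (insert a W)) := by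
  unfold ex
  rw [sum_powerset_insert ha, mul_sum, mul_sum]
  congr 1
  · refine sum_congr rfl fun W hW => ?_
    rw [wt_insert_out ha (mem_powerset.1 hW)]; ring
  · refine sum_congr rfl fun W hW => ?_
    rw [wt_insert_in ha (mem_powerset.1 hW)]; ring

lemma ex_add (p : ℝ) (U : Finset X) (f g : Finset X → ℝ) :
    ex p U (fun W => f W + g W) = ex p U f + ex p U g := by
  simp [ex, mul_add, sum_add_distrib]

lemma ex_mul (p c : ℝ) (U : Finset X) (f : Finset X → ℝ) :
    ex p U (fun W => c * f W) = c * ex p U f := by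
  simp [ex, mul_sum, mul_left_comm]

lemma ex_const (p c : ℝ) (U : Finset X) : ex p U (fun _ => c) = c := by
  induction U using Finset.induction_on with
  | empty => exact ex_empty _ _
  | insert a U ha ih => rw [ex_insert ha, ih]; ring

lemma ex_mono {p : ℝ} (hp0 : 0 ≤ p) (hp1 : p ≤ 1) (U : Finset X) {f g : Finset X → ℝ}
    (h : ∀ W ∈ U.powerset, f W ≤ g W) : ex p U f ≤ ex p U g :=
  sum_le_sum fun W hW => mul_le_mul_of_nonneg_left (h W hW) (wt_nonneg hp0 hp1 U W)

lemma ex_sum {ι : Type*} (p : ℝ) (U : Finset X) (s : Finset ι) (f : ι → Finset X → ℝ) :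
    ex p U (fun W => ∑ i ∈ s, f i W) = ∑ i ∈ s, ex p U (f i) := by
  simp [ex, mul_sum]; exact sum_comm

/-- Union of two independent random subsets. -/
lemma ex_comp (p r : ℝ) (U : Finset X) :
    ∀ f : Finset X → ℝ,
      ex p U (fun W => ex r U (fun W' => f (W ∪ W'))) = ex (p + r - p * r) U f := by
  induction U using Finset.induction_on with
  | empty => intro f; simp [ex_empty]
  | insert a U ha ih =>
    intro f
    simp only [ex_insert ha, insert_union, union_insert, ex_add, ex_mul, Finset.insert_idem]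
    rw [ih f, ih fun W => f (insert a W)]
    ring

/-- The probability that a random subset of `U` contains `T ⊆ U`. -/
lemma ex_indicator (p : ℝ) (U : Finset X) :
    ∀ T : Finset X, T ⊆ U → ex p U (fun W => if T ⊆ W then 1 else 0) = p ^ T.card := by
  induction U using Finset.induction_on with
  | empty => intro T hT; rw [subset_empty.1 hT]; simp [ex_empty]
  | insert a U ha ih =>
    intro T hT
    rw [ex_insert ha]
    by_cases haT : a ∈ T
    · have h0 : ex p U (fun W => if T ⊆ W then (1 : ℝ) else 0) = 0 := by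
        refine sum_eq_zero fun W hW => ?_
        have hn : ¬ T ⊆ W := fun h => ha (mem_powerset.1 hW (h haT))
        simp [hn]
      have h1 : ex p U (fun W => if T ⊆ insert a W then (1 : ℝ) else 0)
          = ex p U (fun W => if T.erase a ⊆ W then 1 else 0) := by
        simp only [subset_insert_iff]
      have hsub : T.erase a ⊆ U := subset_insert_iff.1 hT
      rw [h0, h1, ih _ hsub, mul_zero, zero_add, ← pow_succ', card_erase_of_mem haT]
      rw [Nat.sub_add_cancel (card_pos.2 ⟨a, haT⟩)]
    · have hsub : T ⊆ U := by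
        have := subset_insert_iff.1 hT
        rwa [erase_eq_of_notMem haT] at this
      have h1 : ex p U (fun W => if T ⊆ insert a W then (1 : ℝ) else 0)
          = ex p U (fun W => if T ⊆ W then 1 else 0) := by
        simp only [subset_insert_iff, erase_eq_of_notMem haT]
      rw [h1, ih _ hsub]; ring

variable [Fintype X]

/-- Expectation over a `p`-random subset of the whole type. -/
noncomputable def eX (p : ℝ) (f : Finset X → ℝ) : ℝ := ex p (univ : Finset X) f

variable {ι : Type*} [DecidableEq ι]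

/-- Indicator that no member of the family lies inside `W`. -/
noncomputable def bad (I : Finset ι) (A : ι → Finset X) (W : Finset X) : ℝ :=
  if ∃ i ∈ I, A i ⊆ W then 0 else 1

lemma bad_nonneg (I : Finset ι) (A : ι → Finset X) (W : Finset X) : 0 ≤ bad I A W := by
  unfold bad; split_ifs <;> norm_num

lemma bad_le_one (I : Finset ι) (A : ι → Finset X) (W : Finset X) : bad I A W ≤ 1 := by
  unfold bad; split_ifs <;> norm_num

lemma bad_anti (I : Finset ι) (A : ι → Finset X) {W W' : Finset X} (h : W ⊆ W') :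
    bad I A W' ≤ bad I A W := by
  unfold bad
  by_cases h1 : ∃ i ∈ I, A i ⊆ W
  · have h2 : ∃ i ∈ I, A i ⊆ W' := h1.imp fun i hi => ⟨hi.1, hi.2.trans h⟩
    simp [h1, h2]
  · rw [if_neg h1]; split_ifs <;> norm_num

lemma eX_bad_anti (I : Finset ι) (A : ι → Finset X) {p q : ℝ} (hp0 : 0 ≤ p) (hpq : p ≤ q)
    (hq1 : q ≤ 1) : eX q (bad I A) ≤ eX p (bad I A) := by
  rcases (hpq.trans hq1).eq_or_lt with h | h
  · have : q = p := le_antisymm (h ▸ hq1) hpq
    rw [this]
  set r := (q - p) / (1 - p) with hr
  have h1p : 0 < 1 - p := by linarith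
  have hr0 : 0 ≤ r := div_nonneg (by linarith) h1p.le
  have hr1 : r ≤ 1 := (div_le_one h1p).2 (by linarith)
  have hq : q = p + r - p * r := by rw [hr]; field_simp; ring
  unfold eX
  rw [hq, ← ex_comp]
  refine ex_mono hp0 (hpq.trans hq1) _ fun W _ => ?_
  calc ex r univ (fun W' => bad I A (W ∪ W')) ≤ ex r univ (fun _ => bad I A W) :=
        ex_mono hr0 hr1 _ fun W' _ => bad_anti I A subset_union_left
    _ = _ := ex_const _ _ _

/-- Failure bound for sets of size at most `t`. -/
noncomputable def err (t : ℕ) : ℝ := 1 / 4 * (1 - (1 / 8) ^ t)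

lemma err_le (t : ℕ) : err t ≤ 1 / 4 := by
  unfold err; nlinarith [pow_nonneg (show (0:ℝ) ≤ 1 / 8 by norm_num) t]

/-- Density after `k` rounds. -/
noncomputable def dens (p : ℝ) : ℕ → ℝ
  | 0 => 0
  | k + 1 => p + dens p k - p * dens p k

lemma dens_mem {p : ℝ} (hp0 : 0 ≤ p) (hp1 : p ≤ 1) : ∀ k : ℕ,
    0 ≤ dens p k ∧ dens p k ≤ 1 ∧ dens p k ≤ k * p
  | 0 => by simp [dens]
  | k + 1 => by
    obtain ⟨h0, h1, h2⟩ := dens_mem hp0 hp1 k
    simp only [dens, Nat.cast_add, Nat.cast_one]
    refine ⟨?_, ?_, ?_⟩ <;> nlinarith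

/-- Few large fragments. -/
lemma large_count {N κ p : ℝ} (hκ : 0 < κ) (hp : p = 64 * κ) (hp1 : p ≤ 1) (hN : 0 ≤ N)
    (I : Finset ι) (A : ι → Finset X) (h : ℕ)
    (hsize : ∀ i ∈ I, (A i).card ≤ 2 * h + 1)
    (hspread : ∀ S : Finset X, ((I.filter fun i => S ⊆ A i).card : ℝ) ≤ N * κ ^ S.card)
    (T : Finset X → ι → Finset X)
    (hT1 : ∀ W, ∀ i ∈ I, T W i ⊆ A i ∧ Disjoint (T W i) W ∧ ∃ j ∈ I, A j ⊆ W ∪ T W i)
    (hT2 : ∀ W, ∀ i ∈ I, ∀ j ∈ I, A j ⊆ W ∪ T W i → T W i ⊆ A j) :
    eX p (fun W => ((I.filter fun i => h < (T W i).card).card : ℝ))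
      ≤ N * (err (2 * h + 1) - err h) := by
  classical
  have hp0 : 0 < p := by rw [hp]; positivity
  -- a witness inside each set
  let φ : Finset X → Finset X := fun Z =>
    if hZ : ∃ j ∈ I, A j ⊆ Z then A hZ.choose else ∅
  have hφ : ∀ Z, (φ Z).card ≤ 2 * h + 1 := by
    intro Z
    simp only [φ]
    split_ifs with hZ
    · exact hsize _ hZ.choose_spec.1
    · simp
  have hφT : ∀ W, ∀ i ∈ I, T W i ⊆ φ (W ∪ T W i) := by
    intro W i hi
    have hZ : ∃ j ∈ I, A j ⊆ W ∪ T W i := (hT1 W i hi).2.2
    simp only [φ, dif_pos hZ]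
    exact hT2 W i hi _ hZ.choose_spec.1 hZ.choose_spec.2
  have hone : ∀ s ∈ Ioc h (2 * h + 1),
      eX p (fun W => ((I.filter fun i => (T W i).card = s).card : ℝ))
        ≤ N * ((2 : ℝ) ^ (2 * h + 1) * (1 / 64) ^ s) := by
    intro s _
    unfold eX ex
    -- pairs (W, i) inject into triples (Z, T, i)
    set D := ((univ : Finset X).powerset ×ˢ I).filter fun x => (T x.1 x.2).card = s with hD
    have e1 : ∑ W ∈ (univ : Finset X).powerset, wt p univ W
        * ((I.filter fun i => (T W i).card = s).card : ℝ) = ∑ x ∈ D, wt p univ x.1 := by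
      rw [hD, sum_filter, sum_product]
      refine sum_congr rfl fun W _ => ?_
      simp only [← sum_filter, sum_const, nsmul_eq_mul]
      rw [mul_comm]
    rw [e1]
    set E := (univ : Finset X).powerset.sigma fun Z => ((φ Z).powersetCard s).sigma
      fun T' => I.filter fun i => T' ⊆ A i with hE
    let g : Finset X × ι → (_ : Finset X) × ((_ : Finset X) × ι) := fun x =>
      ⟨x.1 ∪ T x.1 x.2, ⟨T x.1 x.2, x.2⟩⟩
    have hg : Set.InjOn g D := by
      rintro ⟨W, i⟩ hx ⟨W', i'⟩ hy hxy
      simp only [hD, coe_filter, mem_product, Set.mem_ofPred_eq] at hx hy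
      simp only [g, Sigma.mk.injEq, heq_eq_eq] at hxy
      obtain ⟨h1, h2, rfl⟩ := hxy
      have d1 := (hT1 W i hx.1.2).2.1
      have d2 := (hT1 W' i hy.1.2).2.1
      have : W = W' := by
        rw [← union_sdiff_cancel_right d1.symm, h1, h2, union_sdiff_cancel_right d2.symm]
      rw [this]
    calc ∑ x ∈ D, wt p univ x.1
        ≤ ∑ x ∈ D, wt p univ (g x).1 / p ^ s := by
          refine sum_le_sum fun x hx => ?_
          simp only [hD, mem_filter, mem_product] at hx
          have hd := (hT1 x.1 x.2 hx.1.2).2.1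
          have hc : (x.1 ∪ T x.1 x.2).card = x.1.card + s := by
            rw [card_union_of_disjoint hd.symm, hx.2]
          have hle := card_le_card (subset_univ (x.1 ∪ T x.1 x.2))
          rw [hc] at hle
          rw [le_div_iff₀ (pow_pos hp0 s)]
          unfold wt
          rw [show (g x).1 = x.1 ∪ T x.1 x.2 from rfl, hc, pow_add]
          have h1p : 0 ≤ 1 - p := by linarith
          calc p ^ x.1.card * (1 - p) ^ ((univ : Finset X).card - x.1.card) * p ^ s
              = p ^ x.1.card * p ^ s * (1 - p) ^ ((univ : Finset X).card - x.1.card) := by ring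
            _ ≤ _ := mul_le_mul_of_nonneg_left
                (pow_le_pow_of_le_one h1p (by linarith) (by omega)) (by positivity)
      _ = ∑ y ∈ D.image g, wt p univ y.1 / p ^ s := by rw [sum_image hg]
      _ ≤ ∑ y ∈ E, wt p univ y.1 / p ^ s := by
          refine sum_le_sum_of_subset_of_nonneg ?_ fun y _ _ =>
            div_nonneg (wt_nonneg hp0.le hp1 _ _) (by positivity)
          intro y hy
          obtain ⟨x, hx, rfl⟩ := mem_image.1 hy
          simp only [hD, mem_filter, mem_product] at hx
          simp only [hE, g, mem_sigma, mem_powerset, mem_powersetCard, mem_filter]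
          exact ⟨subset_univ _, ⟨hφT _ _ hx.1.2, hx.2⟩, hx.1.2, (hT1 _ _ hx.1.2).1⟩
      _ ≤ ∑ Z ∈ (univ : Finset X).powerset, wt p univ Z
            * (((2 : ℝ) ^ (2 * h + 1)) * (N * κ ^ s) / p ^ s) := by
          rw [hE, sum_sigma]
          refine sum_le_sum fun Z _ => ?_
          dsimp only
          rw [sum_const, nsmul_eq_mul, card_sigma, Nat.cast_sum, mul_div_assoc', mul_div_assoc',
            mul_comm (wt p univ Z)]
          refine div_le_div_of_nonneg_right (mul_le_mul_of_nonneg_right ?_
            (wt_nonneg hp0.le hp1 _ _)) (by positivity)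
          calc (∑ T' ∈ (φ Z).powersetCard s, ((I.filter fun i => T' ⊆ A i).card : ℝ))
              ≤ ∑ T' ∈ (φ Z).powersetCard s, N * κ ^ s := by
                refine sum_le_sum fun T' hT' => ?_
                rw [← (mem_powersetCard.1 hT').2]
                exact hspread T'
            _ = ((φ Z).card.choose s : ℝ) * (N * κ ^ s) := by simp [card_powersetCard]
            _ ≤ _ := by
                refine mul_le_mul_of_nonneg_right ?_ (by positivity)
                exact_mod_cast ((Nat.choose_le_two_pow _ _).trans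
                  (Nat.pow_le_pow_right (by norm_num) (hφ Z)))
      _ = (2 : ℝ) ^ (2 * h + 1) * (N * κ ^ s) / p ^ s := by
          rw [← sum_mul]
          have := ex_const p 1 (univ : Finset X)
          simp only [ex, mul_one] at this
          rw [this, one_mul]
      _ = _ := by
          rw [hp, mul_pow, one_div, inv_pow]
          field_simp
  -- sum over the possible sizes
  have hsplit : ∀ W, ((I.filter fun i => h < (T W i).card).card : ℝ)
      = ∑ s ∈ Ioc h (2 * h + 1), ((I.filter fun i => (T W i).card = s).card : ℝ) := by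
    intro W
    rw [card_eq_sum_card_fiberwise (f := fun i => (T W i).card) (t := Ioc h (2 * h + 1))]
    · push_cast
      refine sum_congr rfl fun s hs => ?_
      congr 2
      ext i
      simp only [mem_filter, mem_Ioc] at hs ⊢
      constructor
      · rintro ⟨⟨h1, -⟩, h2⟩; exact ⟨h1, h2⟩
      · rintro ⟨h1, h2⟩; exact ⟨⟨h1, by omega⟩, h2⟩
    · intro i hi
      simp only [coe_filter, Set.mem_ofPred_eq] at hi
      simp only [coe_Ioc, Set.mem_Ioc]
      exact ⟨hi.2, (card_le_card (hT1 W i hi.1).1).trans (hsize i hi.1)⟩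
  unfold eX
  simp only [hsplit, ex_sum]
  refine (sum_le_sum hone).trans ?_
  rw [← mul_sum, ← mul_sum]
  refine mul_le_mul_of_nonneg_left ?_ hN
  have hgeo : ∀ n : ℕ, (∑ s ∈ Ioc h (h + n), (1 / 64 : ℝ) ^ s)
      ≤ (1 / 63) * (1 / 64) ^ h - (1 / 63) * (1 / 64) ^ (h + n) := by
    intro n
    induction n with
    | zero => simp
    | succ n ih =>
      rw [← add_assoc, sum_Ioc_succ_top (by omega), pow_succ]
      nlinarith [ih]
  have h2 := hgeo (h + 1)
  rw [show h + (h + 1) = 2 * h + 1 by ring] at h2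
  have h3 : (2 : ℝ) ^ (2 * h + 1) * (1 / 64) ^ h = 2 * (1 / 16) ^ h := by
    rw [pow_succ, pow_mul, mul_right_comm, ← mul_pow]
    norm_num; ring
  have h4 : (1 / 16 : ℝ) ^ h ≤ (1 / 8) ^ h := pow_le_pow_left₀ (by norm_num) (by norm_num) h
  have h5 : (1 / 8 : ℝ) ^ (2 * h + 1) ≤ (1 / 8) * (1 / 8) ^ h := by
    rw [← pow_succ']
    exact pow_le_pow_of_le_one (by norm_num) (by norm_num) (by omega)
  calc (2 : ℝ) ^ (2 * h + 1) * ∑ s ∈ Ioc h (2 * h + 1), (1 / 64 : ℝ) ^ s
      ≤ (2 : ℝ) ^ (2 * h + 1) * ((1 / 63) * (1 / 64) ^ h) := by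
        refine mul_le_mul_of_nonneg_left ?_ (by positivity)
        nlinarith [pow_nonneg (show (0:ℝ) ≤ 1 / 64 by norm_num) (2 * h + 1)]
    _ = 2 / 63 * (1 / 16) ^ h := by rw [mul_left_comm, h3]; ring
    _ ≤ _ := by
        unfold err
        nlinarith [pow_nonneg (show (0:ℝ) ≤ 1 / 8 by norm_num) h]

/-- The fragment iteration. -/
theorem fragment_iteration {N κ p : ℝ} (hκ : 0 < κ) (hp : p = 64 * κ) (hp1 : p ≤ 1)
    (hN : 0 ≤ N) : ∀ (k : ℕ) (I : Finset ι) (A : ι → Finset X),
    (∀ i ∈ I, (A i).card ≤ 2 ^ k - 1) →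
    (∀ S : Finset X, ((I.filter fun i => S ⊆ A i).card : ℝ) ≤ N * κ ^ S.card) →
    (I.card : ℝ) * eX (dens p k) (bad I A) ≤ N * err (2 ^ k - 1) := by
  classical
  have hp0 : 0 ≤ p := by rw [hp]; positivity
  intro k
  induction k with
  | zero =>
    intro I A hsize _
    rcases I.eq_empty_or_nonempty with rfl | ⟨i, hi⟩
    · simp [err]
    · have hA : A i = ∅ := card_eq_zero.1 (by simpa using hsize i hi)
      have : ∀ W, bad I A W = 0 := fun W => by
        rw [bad, if_pos ⟨i, hi, by simp [hA]⟩]
      simp [eX, ex, this, err]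
  | succ k ih =>
    intro I A hsize hspread
    set h := 2 ^ k - 1 with hh
    have h2 : 2 ^ (k + 1) - 1 = 2 * h + 1 := by
      have := Nat.one_le_two_pow (n := k); rw [hh, pow_succ]; omega
    rw [h2] at hsize ⊢
    -- minimum fragments
    have hex : ∀ W i, ∃ j, i ∈ I → (j ∈ I ∧ A j ⊆ W ∪ A i ∧
        ∀ l ∈ I, A l ⊆ W ∪ A i → (A j \ W).card ≤ (A l \ W).card) := by
      intro W i
      by_cases hi : i ∈ I
      · obtain ⟨j, hj, hmin⟩ := exists_min_image (I.filter fun l => A l ⊆ W ∪ A i)
          (fun l => (A l \ W).card) ⟨i, mem_filter.2 ⟨hi, subset_union_right⟩⟩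
        rw [mem_filter] at hj
        exact ⟨j, fun _ => ⟨hj.1, hj.2, fun l hl hl' => hmin l (mem_filter.2 ⟨hl, hl'⟩)⟩⟩
      · exact ⟨i, fun h => absurd h hi⟩
    choose J hJ using hex
    let T : Finset X → ι → Finset X := fun W i => A (J W i) \ W
    have hsubA : ∀ W, ∀ i ∈ I, T W i ⊆ A i := by
      intro W i hi x hx
      obtain ⟨hxA, hxW⟩ := mem_sdiff.1 hx
      rcases mem_union.1 ((hJ W i hi).2.1 hxA) with h1 | h1
      · exact absurd h1 hxW
      · exact h1
    have hcover : ∀ W, ∀ i ∈ I, A (J W i) ⊆ W ∪ T W i := by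
      intro W i _ x hx
      by_cases hxW : x ∈ W
      · exact mem_union_left _ hxW
      · exact mem_union_right _ (mem_sdiff.2 ⟨hx, hxW⟩)
    have hL := large_count hκ hp hp1 hN I A h hsize hspread T
      (fun W i hi => ⟨hsubA W i hi, disjoint_sdiff_self_left,
        J W i, (hJ W i hi).1, hcover W i hi⟩)
      (fun W i hi l hl hsub => by
        have hsub' : A l ⊆ W ∪ A i :=
          hsub.trans (union_subset_union_right (hsubA W i hi))
        have hsd : A l \ W ⊆ T W i := by
          intro x hx
          obtain ⟨hxA, hxW⟩ := mem_sdiff.1 hx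
          exact (mem_union.1 (hsub hxA)).resolve_left hxW
        have heq := eq_of_subset_of_card_le hsd ((hJ W i hi).2.2 l hl hsub')
        rw [← heq]; exact sdiff_subset)
    -- one round
    have hround : ∀ W, (I.card : ℝ) * eX (dens p k) (fun W' => bad I A (W ∪ W'))
        ≤ ((I.filter fun i => h < (T W i).card).card : ℝ) + N * err h := by
      intro W
      set I' := I.filter fun i => ¬ h < (T W i).card with hI'
      have hsp' : ∀ S : Finset X,
          ((I'.filter fun i => S ⊆ T W i).card : ℝ) ≤ N * κ ^ S.card := by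
        intro S
        refine le_trans ?_ (hspread S)
        exact_mod_cast card_le_card fun i hi => by
          simp only [hI', mem_filter] at hi ⊢
          exact ⟨hi.1.1, hi.2.trans (hsubA W i hi.1.1)⟩
      have hind := ih I' (T W) (fun i hi => by
        simp only [hI', mem_filter, not_lt] at hi; exact hi.2) hsp'
      have hdm := dens_mem hp0 hp1 k
      have hle : eX (dens p k) (fun W' => bad I A (W ∪ W'))
          ≤ eX (dens p k) (bad I' (T W)) := by
        refine ex_mono hdm.1 hdm.2.1 _ fun W' _ => ?_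
        show bad I A (W ∪ W') ≤ bad I' (T W) W'
        unfold bad
        by_cases h1 : ∃ i ∈ I', T W i ⊆ W'
        · obtain ⟨i, hi, hiW⟩ := h1
          have hiI : i ∈ I := (mem_filter.1 hi).1
          have g1 : ∃ i ∈ I', T W i ⊆ W' := ⟨i, hi, hiW⟩
          have g2 : ∃ l ∈ I, A l ⊆ W ∪ W' := ⟨J W i, (hJ W i hiI).1,
            (hcover W i hiI).trans (union_subset_union_right hiW)⟩
          rw [if_pos g1, if_pos g2]
        · rw [if_neg h1]; split_ifs <;> norm_num
      have hle1 : eX (dens p k) (fun W' => bad I A (W ∪ W')) ≤ 1 := by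
        refine (ex_mono hdm.1 hdm.2.1 _ (fun W' _ => bad_le_one I A _)).trans ?_
        rw [ex_const]
      have hnn : 0 ≤ eX (dens p k) (fun W' => bad I A (W ∪ W')) :=
        sum_nonneg fun W' _ => mul_nonneg (wt_nonneg hdm.1 hdm.2.1 _ _) (bad_nonneg _ _ _)
      have hcard : (I.card : ℝ)
          = ((I.filter fun i => h < (T W i).card).card : ℝ) + (I'.card : ℝ) := by
        rw [hI']; exact_mod_cast (card_filter_add_card_filter_not _).symm
      rw [hcard, add_mul]
      refine add_le_add ?_ ((mul_le_mul_of_nonneg_left hle (Nat.cast_nonneg _)).trans hind)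
      exact mul_le_of_le_one_right (Nat.cast_nonneg _) hle1
    calc (I.card : ℝ) * eX (dens p (k + 1)) (bad I A)
        = eX p (fun W => (I.card : ℝ) * eX (dens p k) (fun W' => bad I A (W ∪ W'))) := by
          show (I.card : ℝ) * eX (p + dens p k - p * dens p k) (bad I A) = _
          unfold eX
          rw [ex_mul, ex_comp]
      _ ≤ eX p (fun W => ((I.filter fun i => h < (T W i).card).card : ℝ) + N * err h) :=
          ex_mono hp0 hp1 _ fun W _ => hround W
      _ = eX p (fun W => ((I.filter fun i => h < (T W i).card).card : ℝ)) + N * err h := by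
          unfold eX; rw [ex_add, ex_const]
      _ ≤ _ := by linarith

end Vale.Agent.P064
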