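import Mathlib
import Vale.Agent.P064.Defs
import Vale.Agent.P064.Spread
import Vale.Agent.P064.Threshold

/-!
From thresholds of graph containment to the abstract statements.
-/

namespace Vale.Agent.P064
open Finset
open scoped Pointwise Classical

set_option linter.unusedSectionVars false

variable {n : ℕ}

/-- The edges of the complete graph on `Fin n`. -/
abbrev Edge (n : ℕ) := {e : Sym2 (Fin n) // ¬ e.IsDiag}

instance edgeAction (n : ℕ) : MulAction (Equiv.Perm (Fin n)) (Edge n) where
  smul g e := ⟨Sym2.map g e.1, by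
    rw [Sym2.isDiag_map g.injective]; exact e.2⟩
  one_smul e := by
    apply Subtype.ext
    show Sym2.map (⇑(1 : Equiv.Perm (Fin n))) e.1 = e.1
    simp
  mul_smul g h e := by
    apply Subtype.ext
    show Sym2.map (⇑(g * h)) e.1 = Sym2.map g (Sym2.map h e.1)
    rw [Sym2.map_map]; rfl

lemma edge_smul_val (g : Equiv.Perm (Fin n)) (e : Edge n) : (g • e).1 = Sym2.map g e.1 := rfl

/-- Edge set of a graph as a finset of edges of the complete graph. -/
noncomputable def edges (G : SimpleGraph (Fin n)) : Finset (Edge n) :=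
  univ.filter fun e => e.1 ∈ G.edgeSet

lemma mem_edges {G : SimpleGraph (Fin n)} {e : Edge n} : e ∈ edges G ↔ e.1 ∈ G.edgeSet := by
  simp [edges]

/-- Graphs correspond to sets of edges. -/
noncomputable def graphEquiv : SimpleGraph (Fin n) ≃ Finset (Edge n) where
  toFun := edges
  invFun S := SimpleGraph.fromEdgeSet (Subtype.val '' (S : Set (Edge n)))
  left_inv G := by
    apply SimpleGraph.edgeSet_injective
    ext e
    simp only [SimpleGraph.edgeSet_fromEdgeSet, Set.mem_sdiff, Set.mem_image, mem_coe, mem_edges,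
      Sym2.mem_diagSet]
    constructor
    · rintro ⟨⟨a, ha, rfl⟩, -⟩; exact ha
    · intro he
      exact ⟨⟨⟨e, G.not_isDiag_of_mem_edgeSet he⟩, he, rfl⟩, G.not_isDiag_of_mem_edgeSet he⟩
  right_inv S := by
    ext e
    simp only [mem_edges, SimpleGraph.edgeSet_fromEdgeSet, Set.mem_sdiff, Set.mem_image, mem_coe,
      Sym2.mem_diagSet]
    constructor
    · rintro ⟨⟨a, ha, hae⟩, -⟩; exact Subtype.ext hae ▸ ha
    · intro he; exact ⟨⟨e, he, rfl⟩, e.2⟩

lemma ncard_edgeSet (G : SimpleGraph (Fin n)) : G.edgeSet.ncard = (edges G).card := by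
  rw [← Set.ncard_coe_finset, ← Set.ncard_image_of_injective _ Subtype.val_injective]
  congr 1
  ext e
  simp only [Set.mem_image, mem_coe, mem_edges]
  constructor
  · intro he; exact ⟨⟨e, G.not_isDiag_of_mem_edgeSet he⟩, he, rfl⟩
  · rintro ⟨a, ha, rfl⟩; exact ha

lemma card_edge : Fintype.card (Edge n) = n.choose 2 := by
  have h := Sym2.card_subtype_not_diag (α := Fin n)
  rw [Fintype.card_fin] at h
  convert h

lemma sum_gnp (p : ℝ) (f : Finset (Edge n) → ℝ) :
    ∑ G : SimpleGraph (Fin n), gnpWeight n p G * f (edges G) = eX p f := by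
  unfold eX ex
  rw [powerset_univ]
  refine Fintype.sum_equiv graphEquiv _ _ fun G => ?_
  show _ = wt p univ (edges G) * f (edges G)
  rw [gnpWeight, wt, ncard_edgeSet, card_univ, card_edge]

lemma ex_one (U : Finset (Edge n)) : ∀ f, ex 1 U f = f U := by
  induction U using Finset.induction_on with
  | empty => intro f; exact ex_empty _ _
  | insert a U ha ih => intro f; rw [ex_insert ha, ih, ih]; ring

lemma eX_mono_p {f : Finset (Edge n) → ℝ} (hf : ∀ S T, S ⊆ T → f S ≤ f T) {p q : ℝ}
    (hp0 : 0 ≤ p) (hpq : p ≤ q) (hq1 : q ≤ 1) : eX p f ≤ eX q f := by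
  rcases (hpq.trans hq1).eq_or_lt with h | h
  · have : q = p := le_antisymm (h ▸ hq1) hpq
    rw [this]
  set r := (q - p) / (1 - p) with hr
  have h1p : 0 < 1 - p := by linarith
  have hr0 : 0 ≤ r := div_nonneg (by linarith) h1p.le
  have hr1 : r ≤ 1 := (div_le_one h1p).2 (by linarith)
  have hq : q = p + r - p * r := by rw [hr]; field_simp; ring
  unfold eX
  rw [hq, ← ex_comp]
  refine ex_mono hp0 (hpq.trans hq1) _ fun W _ => ?_
  calc f W = ex r univ (fun _ => f W) := (ex_const _ _ _).symm
    _ ≤ _ := ex_mono hr0 hr1 _ fun W' _ => hf _ _ subset_union_left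

variable {W : Type}

lemma copyCount_mono {G G' : SimpleGraph (Fin n)} (h : G ≤ G') (F : SimpleGraph W) :
    G.copyCount F ≤ G'.copyCount F := by
  unfold SimpleGraph.copyCount
  let g : G.Subgraph → G'.Subgraph := fun K =>
    { verts := K.verts
      Adj := K.Adj
      adj_sub := fun hab => h (K.adj_sub hab)
      edge_vert := fun hab => K.edge_vert hab
      symm := K.symm }
  refine card_le_card_of_injOn g ?_ ?_
  · intro K hK
    simp only [coe_filter, mem_univ, true_and, Set.mem_ofPred_eq] at hK ⊢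
    exact hK
  · intro K _ K' _ hKK
    have h1 : (g K).verts = (g K').verts := by rw [hKK]
    have h2 : (g K).Adj = (g K').Adj := by rw [hKK]
    exact SimpleGraph.Subgraph.ext h1 h2

lemma expCopies_eq_eX (r : ℝ) (F : SimpleGraph W) :
    expCopies n r F = eX r (fun S : Finset (Edge n) => ((graphEquiv.symm S).copyCount F : ℝ)) := by
  rw [← sum_gnp]
  unfold expCopies
  refine sum_congr rfl fun G _ => ?_
  have h : graphEquiv.symm (edges G) = G := graphEquiv.symm_apply_apply G
  rw [h]

lemma graphEquiv_symm_mono {S T : Finset (Edge n)} (h : S ⊆ T) :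
    graphEquiv.symm S ≤ graphEquiv.symm T :=
  SimpleGraph.fromEdgeSet_mono (Set.image_mono (coe_subset.2 h))

lemma expCopies_mono (F : SimpleGraph W) {p q : ℝ} (hp0 : 0 ≤ p) (hpq : p ≤ q) (hq1 : q ≤ 1) :
    expCopies n p F ≤ expCopies n q F := by
  rw [expCopies_eq_eX, expCopies_eq_eX]
  refine eX_mono_p (fun S T hST => ?_) hp0 hpq hq1
  exact Nat.cast_le.2 (copyCount_mono (graphEquiv_symm_mono hST) F)

lemma expCopies_one_ge {H : SimpleGraph W} (e : W ↪ Fin n) (F : H.Subgraph) :
    1 ≤ expCopies n 1 F.coe := by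
  have key := expCopies_eq_eX (n := n) 1 F.coe
  rw [key, eX, ex_one]
  have : 0 < ((graphEquiv (n := n)).symm univ).copyCount F.coe := by
    rw [SimpleGraph.copyCount_pos]
    refine ⟨⟨⟨fun a => e a.1, fun {a b} hab => ?_⟩, fun a b hab => ?_⟩⟩
    · have hne : e a.1 ≠ e b.1 := fun h => (F.adj_sub hab).ne (e.injective h)
      show (SimpleGraph.fromEdgeSet _).Adj _ _
      rw [SimpleGraph.fromEdgeSet_adj]
      exact ⟨⟨⟨s(e a.1, e b.1), by simpa using hne⟩, by simp, rfl⟩, hne⟩
    · exact Subtype.ext (e.injective hab)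
  exact_mod_cast this

/-- Edge set of the image of `H` in `Fin n`. -/
noncomputable def base (H : SimpleGraph W) (e : W ↪ Fin n) : Finset (Edge n) := edges (H.map e)

lemma mem_base {H : SimpleGraph W} {e : W ↪ Fin n} {x : Edge n} :
    x ∈ base H e ↔ ∃ a b, H.Adj a b ∧ x.1 = s(e a, e b) := by
  obtain ⟨x, hx⟩ := x
  induction x using Sym2.ind with
  | _ u v =>
    rw [base, mem_edges]
    show (H.map e).Adj u v ↔ _
    rw [SimpleGraph.map_adj]
    constructor
    · rintro ⟨a, b, hab, rfl, rfl⟩; exact ⟨a, b, hab, rfl⟩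
    · rintro ⟨a, b, hab, h⟩
      rcases Sym2.eq_iff.1 h with ⟨rfl, rfl⟩ | ⟨rfl, rfl⟩
      · exact ⟨_, _, hab, rfl, rfl⟩
      · exact ⟨_, _, hab.symm, rfl, rfl⟩

/-- Two injections differ by a permutation. -/
lemma exists_perm {α : Type*} [Fintype α] (f g : α ↪ Fin n) :
    ∃ γ : Equiv.Perm (Fin n), ∀ a, γ (f a) = g a := by
  let h : {x // x ∈ Set.range f} ≃ {x // x ∈ Set.range g} :=
    (Equiv.ofInjective f f.injective).symm.trans (Equiv.ofInjective g g.injective)
  refine ⟨h.extendSubtype, fun a => ?_⟩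
  rw [Equiv.extendSubtype_apply_of_mem _ _ ⟨a, rfl⟩]
  simp [h]

/-- A copy of an edge set without isolated vertices is a translate of it. -/
lemma copyCount_le_orbit [Fintype W] {H : SimpleGraph W} (e : W ↪ Fin n) (S : Finset (Edge n))
    (hS : S ⊆ base H e) :
    ∃ F : H.Subgraph, ∀ G : SimpleGraph (Fin n), G.copyCount F.coe
      ≤ (((univ : Finset (Equiv.Perm (Fin n))).image (fun g => g • S)).filter
          fun T => T ⊆ edges G).card := by
  set R : W → W → Prop := fun a b => ∃ x ∈ S, x.1 = s(e a, e b) with hR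
  have hRs : ∀ a b, R a b → R b a := by
    rintro a b ⟨x, hx, h⟩; exact ⟨x, hx, by rw [h, Sym2.eq_swap]⟩
  have hRH : ∀ a b, R a b → H.Adj a b := by
    rintro a b ⟨x, hx, h⟩
    obtain ⟨c, d, hcd, h'⟩ := mem_base.1 (hS hx)
    rcases Sym2.eq_iff.1 (h.symm.trans h') with ⟨h1, h2⟩ | ⟨h1, h2⟩
    · rwa [e.injective h1, e.injective h2]
    · rw [e.injective h1, e.injective h2]; exact hcd.symm
  let F : H.Subgraph :=
    { verts := {a | ∃ b, R a b}
      Adj := R
      adj_sub := fun h => hRH _ _ h
      edge_vert := fun h => ⟨_, h⟩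
      symm := ⟨hRs⟩ }
  refine ⟨F, fun G => ?_⟩
  unfold SimpleGraph.copyCount
  let g : G.Subgraph → Finset (Edge n) := fun K => univ.filter fun x => x.1 ∈ K.edgeSet
  refine card_le_card_of_injOn g ?_ ?_
  · intro K hK
    simp only [coe_filter, mem_univ, true_and, Set.mem_ofPred_eq] at hK
    obtain ⟨φ⟩ := hK
    obtain ⟨γ, hγ⟩ := exists_perm (α := F.verts)
      ⟨fun a => e a.1, fun a b h => Subtype.ext (e.injective h)⟩
      ⟨fun a => (φ a).1, fun a b h => φ.injective (Subtype.ext h)⟩
    simp only [coe_filter, Set.mem_ofPred_eq, mem_image, mem_univ, true_and]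
    refine ⟨⟨γ, ?_⟩, ?_⟩
    · ext x
      simp only [g, mem_filter, mem_univ, true_and]
      constructor
      · intro hx
        obtain ⟨y, hy, rfl⟩ := mem_smul_finset.1 hx
        obtain ⟨a, b, -, hyab⟩ := mem_base.1 (hS hy)
        have hab : R a b := ⟨y, hy, hyab⟩
        have hK' : K.Adj (φ ⟨a, b, hab⟩).1 (φ ⟨b, a, hRs _ _ hab⟩).1 :=
          φ.map_rel_iff.2 (show F.coe.Adj ⟨a, b, hab⟩ ⟨b, a, hRs _ _ hab⟩ from hab)
        rw [edge_smul_val, hyab, Sym2.map_mk]
        have h1 := hγ ⟨a, b, hab⟩
        have h2 := hγ ⟨b, a, hRs _ _ hab⟩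
        rw [show γ (e a) = (φ ⟨a, b, hab⟩).1 from h1,
          show γ (e b) = (φ ⟨b, a, hRs _ _ hab⟩).1 from h2]
        exact hK'
      · intro hx
        obtain ⟨x, hxd⟩ := x
        induction x using Sym2.ind with
        | _ u v =>
          have huv : K.Adj u v := hx
          obtain ⟨a, ha⟩ := φ.surjective ⟨u, K.edge_vert huv⟩
          obtain ⟨b, hb⟩ := φ.surjective ⟨v, K.edge_vert huv.symm⟩
          have hK' : K.coe.Adj (φ a) (φ b) := by rw [ha, hb]; exact huv
          obtain ⟨y, hy, hyab⟩ : R a.1 b.1 := φ.map_rel_iff.1 hK'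
          refine mem_smul_finset.2 ⟨y, hy, Subtype.ext ?_⟩
          rw [edge_smul_val, hyab, Sym2.map_mk]
          have h1 := hγ a
          have h2 := hγ b
          rw [show γ (e a.1) = (φ a).1 from h1, show γ (e b.1) = (φ b).1 from h2, ha, hb]
    · intro x hx
      simp only [g, mem_filter, mem_univ, true_and] at hx
      exact mem_edges.2 (K.edgeSet_subset hx)
  · intro K hK K' hK' hKK
    simp only [coe_filter, mem_univ, true_and, Set.mem_ofPred_eq] at hK hK'
    have hadj : K.Adj = K'.Adj := by
      funext u v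
      by_cases huv : u = v
      · subst huv
        exact propext ⟨fun h => absurd rfl (K.adj_sub h).ne, fun h => absurd rfl (K'.adj_sub h).ne⟩
      · have := congrArg (fun T => (⟨s(u, v), by simpa using huv⟩ : Edge n) ∈ T) hKK
        simp only [g, mem_filter, mem_univ, true_and, eq_iff_iff] at this
        exact propext this
    have hv : ∀ (K : G.Subgraph), Nonempty (F.coe ≃g K.coe) →
        K.verts = {u | ∃ v, K.Adj u v} := by
      intro K ⟨φ⟩
      ext u
      constructor
      · intro hu
        obtain ⟨⟨a, b, hab⟩, ha⟩ := φ.surjective ⟨u, hu⟩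
        have hK'' : K.coe.Adj (φ ⟨a, b, hab⟩) (φ ⟨b, a, hRs _ _ hab⟩) :=
          φ.map_rel_iff.2 (show F.coe.Adj ⟨a, b, hab⟩ ⟨b, a, hRs _ _ hab⟩ from hab)
        rw [ha] at hK''
        exact ⟨_, hK''⟩
      · rintro ⟨v, huv⟩; exact K.edge_vert huv
    refine SimpleGraph.Subgraph.ext ?_ hadj
    rw [hv K hK, hv K' hK', hadj]

/-- A feasible density makes all subsets of the base thin. -/
lemma thin_of_feasible [Fintype W] {H : SimpleGraph W} (e : W ↪ Fin n) {p : ℝ}
    (hp0 : 0 ≤ p) (hp1 : p ≤ 1) (hfeas : ∀ F : H.Subgraph, 1 / 2 ≤ expCopies n p F.coe) :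
    Thin (Equiv.Perm (Fin n)) (2 * p) (base H e) := by
  intro S hS
  rcases S.eq_empty_or_nonempty with rfl | hSne
  · simp only [card_empty, pow_zero]
    rw [div_le_one card_pos_real]
    exact_mod_cast card_le_univ _
  obtain ⟨F, hF⟩ := copyCount_le_orbit e S hS
  set O := (univ : Finset (Equiv.Perm (Fin n))).image (fun g => g • S) with hO
  have h1 : (1 : ℝ) / 2 ≤ (O.card : ℝ) * p ^ S.card := by
    refine (hfeas F).trans ?_
    calc expCopies n p F.coe
        ≤ ∑ G : SimpleGraph (Fin n), gnpWeight n p G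
            * ∑ T ∈ O, (if T ⊆ edges G then (1 : ℝ) else 0) := by
          refine sum_le_sum fun G _ => mul_le_mul_of_nonneg_left ?_ ?_
          · rw [sum_boole]; exact_mod_cast hF G
          · unfold gnpWeight
            have : 0 ≤ 1 - p := by linarith
            positivity
      _ = ∑ T ∈ O, eX p (fun U => if T ⊆ U then (1 : ℝ) else 0) := by
          rw [sum_gnp p (fun U => ∑ T ∈ O, if T ⊆ U then (1 : ℝ) else 0)]
          exact ex_sum _ _ _ _
      _ = ∑ T ∈ O, p ^ S.card := by
          refine sum_congr rfl fun T hT => ?_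
          obtain ⟨g, -, rfl⟩ := mem_image.1 hT
          rw [eX, ex_indicator _ _ _ (subset_univ _), card_smul_finset]
      _ = _ := by simp
  set Stab := (univ : Finset (Equiv.Perm (Fin n))).filter fun g => g • S = S with hStab
  have h2 : O.card * Stab.card ≤ Fintype.card (Equiv.Perm (Fin n)) := by
    rw [← card_univ, card_eq_sum_card_image (fun g => g • S) univ, ← smul_eq_mul, ← sum_const]
    refine sum_le_sum fun T hT => ?_
    obtain ⟨g₀, -, rfl⟩ := mem_image.1 hT
    refine card_le_card_of_injOn (fun g => g₀ * g) ?_ (fun a _ b _ h => mul_left_cancel h)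
    intro g hg
    simp only [hStab, coe_filter, mem_univ, true_and, Set.mem_ofPred_eq] at hg ⊢
    rw [mul_smul, hg]
  rw [div_le_iff₀ card_pos_real]
  have h2' : (O.card : ℝ) * Stab.card ≤ (Fintype.card (Equiv.Perm (Fin n)) : ℝ) := by
    exact_mod_cast h2
  have h3 : 2 * p ^ S.card ≤ (2 * p) ^ S.card := by
    rw [mul_pow]
    refine mul_le_mul_of_nonneg_right ?_ (by positivity)
    calc (2 : ℝ) = 2 ^ 1 := (pow_one _).symm
      _ ≤ _ := pow_le_pow_right₀ (by norm_num) hSne.card_pos
  calc (Stab.card : ℝ) = 2 * Stab.card * (1 / 2) := by ring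
    _ ≤ 2 * Stab.card * ((O.card : ℝ) * p ^ S.card) := by gcongr
    _ = 2 * p ^ S.card * ((O.card : ℝ) * Stab.card) := by ring
    _ ≤ _ := mul_le_mul h3 h2' (by positivity) (by positivity)

/-- Containment from a translate of the base. -/
lemma copyCount_pos_of_translate {H : SimpleGraph W} (e : W ↪ Fin n) (g : Equiv.Perm (Fin n))
    {G : SimpleGraph (Fin n)} (h : g • base H e ⊆ edges G) : 0 < G.copyCount H := by
  rw [SimpleGraph.copyCount_pos]
  refine ⟨⟨⟨fun a => g (e a), fun {a b} hab => ?_⟩, fun a b hab =>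
    e.injective (g.injective hab)⟩⟩
  have hne : e a ≠ e b := fun h => hab.ne (e.injective h)
  have hx : (⟨s(e a, e b), by simpa using hne⟩ : Edge n) ∈ base H e :=
    mem_base.2 ⟨a, b, hab, rfl⟩
  have := mem_edges.1 (h (smul_mem_smul_finset hx (a := g)))
  rw [edge_smul_val, Sym2.map_mk] at this
  exact this

/-- Spreadness gives the containment threshold. -/
lemma probContains_ge {H : SimpleGraph W} (e : W ↪ Fin n) {κ : ℝ} (hκ : 0 < κ)
    (hκ1 : 64 * κ ≤ 1) (k : ℕ) (hk : (base H e).card ≤ 2 ^ k - 1)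
    (hspread : ∀ S, pr (Equiv.Perm (Fin n)) S (base H e) ≤ κ ^ S.card) {p : ℝ}
    (hp : (k : ℝ) * (64 * κ) ≤ p) (hp1 : p ≤ 1) : 1 / 2 ≤ probContains n p H := by
  set A : Equiv.Perm (Fin n) → Finset (Edge n) := fun g => g • base H e with hA
  have hN : (0 : ℝ) < Fintype.card (Equiv.Perm (Fin n)) := card_pos_real
  have hfi := fragment_iteration (N := (Fintype.card (Equiv.Perm (Fin n)) : ℝ)) hκ rfl hκ1
    hN.le k univ A (fun g _ => by rw [hA]; simpa [card_smul_finset] using hk) (fun S => by
      have h1 : (((univ : Finset (Equiv.Perm (Fin n))).filter fun g => S ⊆ A g).card : ℝ)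
          = (cnt (Equiv.Perm (Fin n)) S (base H e) : ℝ) := by
        unfold cnt
        norm_cast
        refine card_equiv (Equiv.inv _) fun g => ?_
        simp [hA, subset_smul_finset_iff]
      rw [h1]
      have := hspread S
      rw [pr, div_le_iff₀ hN] at this
      linarith [mul_comm (κ ^ S.card) (Fintype.card (Equiv.Perm (Fin n)) : ℝ)])
  rw [card_univ] at hfi
  have hbad : eX (dens (64 * κ) k) (bad univ A) ≤ 1 / 4 :=
    (le_of_mul_le_mul_left hfi hN).trans (err_le _)
  obtain ⟨hd0, hd1, hdk⟩ := dens_mem (p := 64 * κ) (by positivity) hκ1 k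
  have hbad' := (eX_bad_anti univ A hd0 (hdk.trans hp) hp1).trans hbad
  have hone : eX p (fun _ : Finset (Edge n) => (1 : ℝ)) = 1 := ex_const _ _ _
  have hsum : eX p (fun _ : Finset (Edge n) => (1 : ℝ)) ≤ probContains n p H + eX p (bad univ A) := by
    rw [← sum_gnp, ← sum_gnp]
    unfold probContains
    rw [← sum_add_distrib]
    refine sum_le_sum fun G _ => ?_
    have hw : 0 ≤ gnpWeight n p G := by
      unfold gnpWeight
      have : 0 ≤ 1 - p := by linarith
      have : 0 ≤ p := hd0.trans (hdk.trans hp)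
      positivity
    unfold bad
    by_cases hG : ∃ g ∈ (univ : Finset (Equiv.Perm (Fin n))), A g ⊆ edges G
    · obtain ⟨g, -, hg⟩ := hG
      rw [if_pos (copyCount_pos_of_translate e g hg)]
      have : ∃ g ∈ (univ : Finset (Equiv.Perm (Fin n))), A g ⊆ edges G := ⟨g, mem_univ _, hg⟩
      rw [if_pos this]; simp
    · rw [if_neg hG]
      split_ifs <;> linarith
  linarith

/-- Spreadness gives the bound on expected copies. -/
lemma copyCount_le_expCopies [Fintype W] {H : SimpleGraph W} (e : W ↪ Fin n) {p : ℝ}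
    (hp0 : 0 ≤ p) (hp1 : p ≤ 1)
    (hspread : ∀ S, pr (Equiv.Perm (Fin n)) S (base H e) ≤ p ^ S.card) (F : H.Subgraph) :
    (H.copyCount F.coe : ℝ) ≤ expCopies n p F.coe := by
  set J := (univ : Finset ((⊤ : SimpleGraph (Fin n)).Subgraph)).filter
    fun K => Nonempty (F.coe ≃g K.coe) with hJ
  let es : (⊤ : SimpleGraph (Fin n)).Subgraph → Finset (Edge n) :=
    fun K => univ.filter fun x => x.1 ∈ K.edgeSet
  -- copies in `G`
  have hG : ∀ G : SimpleGraph (Fin n),
      ((J.filter fun K => es K ⊆ edges G).card : ℝ) ≤ G.copyCount F.coe := by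
    intro G
    unfold SimpleGraph.copyCount
    norm_cast
    have hsub : ∀ K ∈ J.filter fun K => es K ⊆ edges G, ∀ {u v}, K.Adj u v → G.Adj u v := by
      intro K hK u v huv
      have hne : u ≠ v := (K.adj_sub huv).ne
      have := (mem_filter.1 hK).2 (show (⟨s(u, v), by simpa using hne⟩ : Edge n) ∈ es K by
        simp only [es, mem_filter, mem_univ, true_and]; exact huv)
      exact mem_edges.1 this
    refine card_le_card_of_injOn (fun K =>
      if h : ∀ {u v}, K.Adj u v → G.Adj u v then
        { verts := K.verts, Adj := K.Adj, adj_sub := h,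
          edge_vert := fun hab => K.edge_vert hab, symm := K.symm }
      else ⊥) ?_ ?_
    · intro K hK
      simp only [mem_coe] at hK
      dsimp only
      have hd : ∀ {u v}, K.Adj u v → G.Adj u v := hsub K hK
      split_ifs
      simp only [hJ, mem_filter, mem_univ, true_and, coe_filter, Set.mem_ofPred_eq] at hK ⊢
      exact hK.1
    · intro K hK K' hK' hKK
      simp only [mem_coe] at hK hK'
      have hd : ∀ {u v}, K.Adj u v → G.Adj u v := hsub K hK
      have hd' : ∀ {u v}, K'.Adj u v → G.Adj u v := hsub K' hK'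
      dsimp only at hKK
      split_ifs at hKK
      simp only [SimpleGraph.Subgraph.mk.injEq] at hKK
      exact SimpleGraph.Subgraph.ext hKK.1 hKK.2
  calc (H.copyCount F.coe : ℝ)
      = (∑ _g : Equiv.Perm (Fin n), (H.copyCount F.coe : ℝ))
          / Fintype.card (Equiv.Perm (Fin n)) := by
        rw [sum_const, nsmul_eq_mul, card_univ, mul_div_cancel_left₀ _ card_pos_real.ne']
    _ ≤ (∑ g : Equiv.Perm (Fin n), ((J.filter fun K => g • es K ⊆ base H e).card : ℝ))
          / Fintype.card (Equiv.Perm (Fin n)) := by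
        gcongr with g
        unfold SimpleGraph.copyCount
        let f : H →g (⊤ : SimpleGraph (Fin n)) :=
          ⟨fun a => g⁻¹ (e a), fun {a b} hab => by
            simp only [SimpleGraph.top_adj, ne_eq, EmbeddingLike.apply_eq_iff_eq]
            exact hab.ne⟩
        have hf : Function.Injective f := fun a b h => e.injective (g⁻¹.injective h)
        refine card_le_card_of_injOn (fun K => K.map f) ?_ ?_
        · intro K hK
          simp only [coe_filter, mem_univ, true_and, Set.mem_ofPred_eq] at hK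
          obtain ⟨φ⟩ := hK
          simp only [hJ, coe_filter, mem_filter, mem_univ, true_and, Set.mem_ofPred_eq]
          refine ⟨⟨φ.trans ⟨(Equiv.Set.image f K.verts hf).trans
            (Equiv.setCongr (by simp)), ?_⟩⟩, ?_⟩
          · intro a b
            show (K.map f).Adj (f a.1) (f b.1) ↔ K.Adj a.1 b.1
            simp only [SimpleGraph.Subgraph.map_adj, Relation.Map]
            constructor
            · rintro ⟨a', b', h, ha, hb⟩; rwa [← hf ha, ← hf hb]
            · intro h; exact ⟨_, _, h, rfl, rfl⟩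
          · intro x hx
            obtain ⟨y, hy, rfl⟩ := mem_smul_finset.1 hx
            simp only [es, mem_filter, mem_univ, true_and] at hy
            obtain ⟨y, hyd⟩ := y
            induction y using Sym2.ind with
            | _ u v =>
              have hy' : (K.map f).Adj u v := hy
              simp only [SimpleGraph.Subgraph.map_adj, Relation.Map] at hy'
              obtain ⟨a, b, hab, ha, hb⟩ := hy'
              refine mem_base.2 ⟨a, b, K.adj_sub hab, ?_⟩
              rw [edge_smul_val]
              show Sym2.map g s(u, v) = _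
              rw [← ha, ← hb, Sym2.map_mk]
              simp [f]
        · intro K _ K' _ hKK
          dsimp only at hKK
          refine SimpleGraph.Subgraph.ext ?_ ?_
          · have h := congrArg SimpleGraph.Subgraph.verts hKK
            exact hf.image_injective (by simpa [f] using h)
          · funext a b
            have h := congrFun (congrFun (congrArg SimpleGraph.Subgraph.Adj hKK) (f a)) (f b)
            simp only [SimpleGraph.Subgraph.map_adj, Relation.Map, eq_iff_iff] at h
            refine propext ⟨fun hab => ?_, fun hab => ?_⟩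
            · obtain ⟨a', b', h', ha, hb⟩ := h.1 ⟨a, b, hab, rfl, rfl⟩
              rwa [hf ha, hf hb] at h'
            · obtain ⟨a', b', h', ha, hb⟩ := h.2 ⟨a, b, hab, rfl, rfl⟩
              rwa [hf ha, hf hb] at h'
    _ = ∑ K ∈ J, pr (Equiv.Perm (Fin n)) (es K) (base H e) := by
        unfold pr cnt
        rw [← sum_div]
        congr 1
        simp only [← sum_boole]
        exact sum_comm
    _ ≤ ∑ K ∈ J, p ^ (es K).card := sum_le_sum fun K _ => hspread _
    _ = ∑ G : SimpleGraph (Fin n),
          gnpWeight n p G * ((J.filter fun K => es K ⊆ edges G).card : ℝ) := by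
        simp only [← sum_boole]
        rw [sum_gnp p (fun U => ∑ K ∈ J, if es K ⊆ U then (1 : ℝ) else 0), eX, ex_sum]
        exact sum_congr rfl fun K _ => (ex_indicator _ _ _ (subset_univ _)).symm
    _ ≤ _ := by
        refine sum_le_sum fun G _ => mul_le_mul_of_nonneg_left (hG G) ?_
        unfold gnpWeight
        have : 0 ≤ 1 - p := by linarith
        positivity

end Vale.Agent.P064
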