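import Mathlib
import Vale.Agent.P064.Graph

/-!
Bounds for `p̃_E` and `p_c` in terms of `p_E`.
-/

namespace Vale.Agent.P064
open Finset
open scoped Pointwise Classical

set_option linter.unusedSectionVars false

variable {n : ℕ} {W : Type}

lemma probContains_one {H : SimpleGraph W} (e : W ↪ Fin n) : 1 / 2 ≤ probContains n 1 H := by
  have hle : eX (1 : ℝ) (fun U : Finset (Edge n) => if base H e ⊆ U then (1 : ℝ) else 0)
      ≤ probContains n 1 H := by
    rw [← sum_gnp]
    unfold probContains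
    refine sum_le_sum fun G _ => ?_
    by_cases h : base H e ⊆ edges G
    · rw [if_pos h, if_pos (copyCount_pos_of_translate e 1 (by simpa using h)), mul_one]
    · rw [if_neg h]
      have : 0 ≤ gnpWeight n 1 G := by unfold gnpWeight; simp
      split_ifs <;> simp [this]
  have h1 : eX (1 : ℝ) (fun U : Finset (Edge n) => if base H e ⊆ U then (1 : ℝ) else 0) = 1 := by
    rw [eX, ex_one]; simp
  linarith

lemma pc_le {H : SimpleGraph W} {p : ℝ} (hp : p ∈ Set.Icc (0 : ℝ) 1)
    (h : 1 / 2 ≤ probContains n p H) : pc n H ≤ p :=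
  csInf_le ⟨0, fun _ hx => hx.1.1⟩ ⟨hp, h⟩

lemma pEtilde_le [Fintype W] {H : SimpleGraph W} {p : ℝ} (hp : p ∈ Set.Icc (0 : ℝ) 1)
    (h : ∀ F : H.Subgraph, (H.copyCount F.coe : ℝ) / 2 ≤ expCopies n p F.coe) :
    pEtilde n H ≤ p :=
  csInf_le ⟨0, fun _ hx => hx.1.1⟩ ⟨hp, h⟩

lemma pE_nonneg [Fintype W] {H : SimpleGraph W} (e : W ↪ Fin n) : 0 ≤ pE n H :=
  le_csInf ⟨1, ⟨zero_le_one, le_rfl⟩, fun F => le_trans (by norm_num) (expCopies_one_ge e F)⟩
    fun _ hx => hx.1.1

lemma thin_of_gt_pE [Fintype W] {H : SimpleGraph W} (e : W ↪ Fin n) {q : ℝ}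
    (hq : pE n H < q) (hq1 : q ≤ 1) :
    0 < q ∧ Thin (Equiv.Perm (Fin n)) (2 * q) (base H e) := by
  obtain ⟨p, ⟨⟨hp0, hp1⟩, hfeas⟩, hpq⟩ := exists_lt_of_csInf_lt
    (s := {p : ℝ | p ∈ Set.Icc (0 : ℝ) 1 ∧ ∀ F : H.Subgraph, 1 / 2 ≤ expCopies n p F.coe})
    ⟨1, ⟨zero_le_one, le_rfl⟩, fun F => le_trans (by norm_num) (expCopies_one_ge e F)⟩ hq
  exact ⟨hp0.trans_lt hpq, thin_of_feasible e (hp0.trans hpq.le) hq1 fun F =>
    (hfeas F).trans (expCopies_mono _ hp0 hpq.le hq1)⟩

lemma clog_two_le (m : ℕ) (hm : 1 ≤ m) : (Nat.clog 2 m : ℝ) * Real.log 2 ≤ Real.log m + Real.log 2 := by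
  rcases Nat.eq_or_lt_of_le hm with h | h
  · subst h; simp [Real.log_nonneg]
  · have h1 := Nat.pow_pred_clog_lt_self (b := 2) (by norm_num) h
    have h2 : ((2 : ℝ)) ^ (Nat.clog 2 m).pred ≤ m := by exact_mod_cast h1.le
    have h3 := Real.log_le_log (by positivity) h2
    rw [Real.log_pow] at h3
    have h4 : 1 ≤ Nat.clog 2 m := Nat.clog_pos (by norm_num) h
    have h5 : ((Nat.clog 2 m).pred : ℝ) = (Nat.clog 2 m : ℝ) - 1 := by
      rw [← Nat.sub_one, Nat.cast_sub h4]; norm_num
    rw [h5] at h3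
    nlinarith

lemma card_base_le (H : SimpleGraph W) (e : W ↪ Fin n) :
    (base H e).card ≤ 2 ^ (2 * Nat.clog 2 n) := by
  refine (card_le_univ _).trans ?_
  rw [card_edge, mul_comm 2, pow_mul]
  refine (Nat.choose_le_pow n 2).trans (Nat.pow_le_pow_left ?_ 2)
  exact Nat.le_pow_clog (by norm_num) n

lemma log_bounds (hn : 2 ≤ n) :
    let K := 2 * Nat.clog 2 n
    let l := Nat.clog 2 (K + 1)
    0 < Real.log n ∧ 0 < Real.log (Real.log n + 2) ∧ (K : ℝ) + 1 ≤ 10 * Real.log n ∧
      (l : ℝ) + 1 ≤ 12 * Real.log (Real.log n + 2) := by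
  intro K l
  have hl2a := Real.log_two_gt_d9
  have hl2b := Real.log_two_lt_d9
  have hn' : (2 : ℝ) ≤ n := by exact_mod_cast hn
  have hlog : Real.log 2 ≤ Real.log n := Real.log_le_log (by norm_num) hn'
  have hlog0 : 0 < Real.log n := by linarith
  have hc := clog_two_le n (by omega)
  have hK : (K : ℝ) + 1 ≤ 10 * Real.log n := by
    show ((2 * Nat.clog 2 n : ℕ) : ℝ) + 1 ≤ _
    push_cast
    nlinarith [Nat.cast_nonneg (α := ℝ) (Nat.clog 2 n)]
  set x := Real.log (Real.log n + 2) with hx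
  have hx2 : Real.log 2 ≤ x := Real.log_le_log (by norm_num) (by linarith)
  refine ⟨hlog0, by linarith, hK, ?_⟩
  have hcl := clog_two_le (K + 1) (by omega)
  have h1 : Real.log ((K + 1 : ℕ) : ℝ) ≤ 4 * Real.log 2 + x := by
    calc Real.log ((K + 1 : ℕ) : ℝ) ≤ Real.log ((2 : ℝ) ^ 4 * (Real.log n + 2)) := by
          refine Real.log_le_log (by positivity) ?_
          push_cast; linarith
      _ = _ := by rw [Real.log_mul (by positivity) (by linarith), Real.log_pow]; push_cast; ring
  show (l : ℝ) + 1 ≤ 12 * x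
  have hl : (l : ℝ) * Real.log 2 ≤ 5 * Real.log 2 + x := by linarith
  nlinarith

/-- The spread bound in terms of `p_E`. -/
lemma spread_of_gt_pE [Fintype W] (hn : 2 ≤ n) {H : SimpleGraph W} (e : W ↪ Fin n) {q : ℝ}
    (hq : pE n H < q) (hq1 : q ≤ 1) (S : Finset (Edge n)) :
    pr (Equiv.Perm (Fin n)) S (base H e)
      ≤ (27804 * 2880 * q * Real.log n * Real.log (Real.log n + 2) ^ 2) ^ S.card := by
  obtain ⟨hq0, hthin⟩ := thin_of_gt_pE e hq hq1
  obtain ⟨h1, h2, h3, h4⟩ := log_bounds hn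
  refine (spread_log hthin (by positivity) _ _ (card_base_le H e)
    (Nat.le_pow_clog (by norm_num) _) S).trans (pow_le_pow_left₀ (by positivity) ?_ _)
  have h5 := pow_le_pow_left₀ (by positivity) h4 2
  calc 27804 * (((2 * Nat.clog 2 n : ℕ) : ℝ) + 1)
        * ((Nat.clog 2 (2 * Nat.clog 2 n + 1) : ℝ) + 1) ^ 2 * (2 * q)
      ≤ 27804 * (10 * Real.log n) * (12 * Real.log (Real.log n + 2)) ^ 2 * (2 * q) := by
        gcongr
    _ = _ := by ring

theorem main_bounds :
    ∃ C : ℝ, 0 < C ∧ ∀ n : ℕ, 2 ≤ n → ∀ (W : Type) [Fintype W] (H : SimpleGraph W),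
      Fintype.card W ≤ n → H.edgeSet.Nonempty →
        pEtilde n H ≤ C * pE n H * Real.log n * Real.log (Real.log n + 2) ^ 2 ∧
        pc n H ≤ C * pE n H * Real.log n ^ 2 * Real.log (Real.log n + 2) ^ 2 := by
  refine ⟨640 * 27804 * 2880, by norm_num, ?_⟩
  intro n hn W _ H hW _
  obtain ⟨e⟩ := Function.Embedding.nonempty_of_card_le (α := W) (β := Fin n) (by simpa using hW)
  obtain ⟨hlog0, hx0, hK, -⟩ := log_bounds hn
  set X := Real.log (Real.log n + 2) ^ 2 with hX
  have hX0 : 0 < X := by positivity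
  have hE := pE_nonneg (H := H) e
  set D : ℝ := 27804 * 2880 * Real.log n * X with hD
  have hD0 : 0 < D := by positivity
  have hD1 : 1 ≤ D := by
    have h1 : Real.log 2 ≤ Real.log n := Real.log_le_log (by norm_num) (by exact_mod_cast hn)
    have h2 : Real.log 2 ≤ Real.log (Real.log n + 2) := Real.log_le_log (by norm_num) (by linarith)
    have h3 : (1 / 2 : ℝ) ≤ Real.log 2 := by linarith [Real.log_two_gt_d9]
    have hXl : (1 / 4 : ℝ) ≤ X := by rw [hX]; nlinarith
    rw [hD]; nlinarith [mul_le_mul (h3.trans h1) hXl (by norm_num) hlog0.le]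
  -- at a feasible density
  have key : ∀ q, pE n H < q → pEtilde n H ≤ D * q ∧ pc n H ≤ 640 * Real.log n * (D * q) := by
    intro q hq
    have hq0 : 0 < q := lt_of_le_of_lt hE hq
    have hDq : 0 < D * q := by positivity
    have hln : (1 : ℝ) ≤ 640 * Real.log n := by
      have h1 : Real.log 2 ≤ Real.log n := Real.log_le_log (by norm_num) (by exact_mod_cast hn)
      linarith [Real.log_two_gt_d9]
    by_cases hq1 : q ≤ 1
    · have hsp : ∀ S, pr (Equiv.Perm (Fin n)) S (base H e) ≤ (D * q) ^ S.card := fun S =>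
        (spread_of_gt_pE hn e hq hq1 S).trans (le_of_eq (by rw [hD, hX]; ring))
      constructor
      · by_cases h1 : D * q ≤ 1
        · refine pEtilde_le ⟨hDq.le, h1⟩ fun F => ?_
          have := copyCount_le_expCopies e hDq.le h1 hsp F
          have : (0 : ℝ) ≤ H.copyCount F.coe := Nat.cast_nonneg _
          linarith
        · refine le_trans (pEtilde_le ⟨zero_le_one, le_rfl⟩ fun F => ?_) (le_of_not_ge h1)
          have := copyCount_le_expCopies e zero_le_one le_rfl (fun S => by
            rw [one_pow, pr, div_le_one card_pos_real]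
            exact_mod_cast card_le_univ _) F
          have : (0 : ℝ) ≤ H.copyCount F.coe := Nat.cast_nonneg _
          linarith
      · by_cases h1 : 640 * Real.log n * (D * q) ≤ 1
        · have hk : (base H e).card ≤ 2 ^ (2 * Nat.clog 2 n + 1) - 1 := by
            have := card_base_le H e
            have := Nat.one_le_two_pow (n := 2 * Nat.clog 2 n)
            rw [pow_succ]; omega
          have h64 : 64 * (D * q) ≤ 1 := by
            have : Real.log 2 ≤ Real.log n := Real.log_le_log (by norm_num) (by exact_mod_cast hn)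
            nlinarith [Real.log_two_gt_d9]
          refine pc_le ⟨by positivity, h1⟩ (probContains_ge e hDq h64 _ hk hsp ?_ h1)
          push_cast at hK ⊢
          nlinarith
        · exact (pc_le ⟨zero_le_one, le_rfl⟩ (probContains_one e)).trans (le_of_not_ge h1)
    · have hq1' : 1 ≤ D * q := by nlinarith
      refine ⟨le_trans (pEtilde_le ⟨zero_le_one, le_rfl⟩ fun F => ?_) hq1',
        (pc_le ⟨zero_le_one, le_rfl⟩ (probContains_one e)).trans (one_le_mul_of_one_le_of_one_le hln hq1')⟩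
      have := copyCount_le_expCopies e zero_le_one le_rfl (fun S => by
        rw [one_pow, pr, div_le_one card_pos_real]
        exact_mod_cast card_le_univ _) F
      have : (0 : ℝ) ≤ H.copyCount F.coe := Nat.cast_nonneg _
      linarith
  constructor
  · have hlim : pEtilde n H ≤ D * pE n H := by
      refine le_of_forall_pos_le_add fun ε hε => ?_
      have := (key (pE n H + ε / D) (lt_add_of_pos_right _ (by positivity))).1
      rw [mul_add, mul_div_cancel₀ ε hD0.ne'] at this
      exact this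
    refine hlim.trans ?_
    rw [hD]
    nlinarith [show 0 ≤ pE n H * Real.log n * X by positivity]
  · have hM : 0 < 640 * Real.log n * D := by positivity
    have hlim : pc n H ≤ 640 * Real.log n * D * pE n H := by
      refine le_of_forall_pos_le_add fun ε hε => ?_
      have := (key (pE n H + ε / (640 * Real.log n * D))
        (lt_add_of_pos_right _ (by positivity))).2
      rw [← mul_assoc, mul_add, mul_div_cancel₀ ε hM.ne'] at this
      exact this
    refine hlim.trans (le_of_eq ?_)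
    rw [hD]; ring

end Vale.Agent.P064
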