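import Mathlib
import Vale.Agent.P064.Spread

/-!
Spreadness of a symmetric family with an absolute constant.

For a probability distribution `p` on subsets of `A` let `gain p = ℓ E|V| + H(V) - H(gV)`, where
`g` is a uniform element of `Γ`. Three facts are used: doubling
`2 gain V ≤ gain (V ∪ V') + ℓ E|V ∩ V'| - H(gW) + 2 H(c | V)`, where `W = V ∩ V'` and `c` is `W`
resampled given `V`; the bound `H(gW) ≥ ℓ E|W|` from thinness; and conditioning on `c`, which
gives `gain V ≤ H(c) + E (gain (V | c))`. Together with the potential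
`∑ (C q - q / (1 + log (1/q)))` of the marginals `q` they give `gain V ≤ C E|V|`.
-/

namespace Vale.Agent.P064.Sharp
open Finset Real
open scoped Pointwise

set_option linter.unusedSectionVars false

variable {Γ : Type*} [Group Γ] [Fintype Γ] {X : Type*} [Fintype X] [DecidableEq X] [MulAction Γ X]

/-! ### Real inequalities -/

/-- The perturbation of the linear potential. -/
noncomputable def phi (x : ℝ) : ℝ := x / (1 - log x)

/-- Its derivative. -/
noncomputable def dphi (x : ℝ) : ℝ := 1 / (1 - log x) + 1 / (1 - log x) ^ 2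

/-- The constant in the exponent. -/
noncomputable def CC : ℝ := 240016

lemma phi_zero : phi 0 = 0 := by simp [phi]

lemma one_le_den {x : ℝ} (h0 : 0 ≤ x) (h1 : x ≤ 1) : 1 ≤ 1 - log x := by
  linarith [log_nonpos h0 h1]

lemma phi_nonneg {x : ℝ} (h0 : 0 ≤ x) (h1 : x ≤ 1) : 0 ≤ phi x :=
  div_nonneg h0 (by linarith [one_le_den h0 h1])

lemma phi_le {x : ℝ} (h0 : 0 ≤ x) (h1 : x ≤ 1) : phi x ≤ x :=
  div_le_self h0 (one_le_den h0 h1)

lemma phi_tangent {a q : ℝ} (ha0 : 0 ≤ a) (ha1 : a ≤ 1) (hq0 : 0 ≤ q) (hq1 : q ≤ 1)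
    (haq : q = 0 → a = 0) : phi q + dphi q * (a - q) ≤ phi a := by
  rcases hq0.eq_or_lt with h | hq
  · simp [haq h.symm, ← h, phi_zero]
  have hY := one_le_den hq0 hq1
  rcases ha0.eq_or_lt with h | ha
  · subst h
    rw [phi_zero, phi, dphi]
    have : q / (1 - log q) + (1 / (1 - log q) + 1 / (1 - log q) ^ 2) * (0 - q)
        = -(q / (1 - log q) ^ 2) := by field_simp; ring
    rw [this]
    exact neg_nonpos.2 (by positivity)
  have hYa := one_le_den ha0 ha1
  set Y := 1 - log q with hYd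
  set Z := 1 - log a with hZd
  have hexp : (Z - Y) + 1 ≤ q / a := by
    have : Z - Y = log (q / a) := by rw [log_div hq.ne' ha.ne']; ring
    rw [this]
    linarith [log_le_sub_one_of_pos (div_pos hq ha)]
  have key : phi a - (phi q + dphi q * (a - q))
      = a * (1 / Z - 1 / Y + (q / a - 1) / Y ^ 2) := by
    rw [phi, phi, dphi, ← hYd, ← hZd]; field_simp; ring
  have h2 : (1 / Z - 1 / Y) + (Z - Y) / Y ^ 2 = (Z - Y) ^ 2 / (Y ^ 2 * Z) := by
    field_simp; ring
  have h3 : (Z - Y) / Y ^ 2 ≤ (q / a - 1) / Y ^ 2 :=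
    div_le_div_of_nonneg_right (by linarith) (sq_nonneg _)
  have h4 : 0 ≤ (Z - Y) ^ 2 / (Y ^ 2 * Z) := by positivity
  nlinarith [mul_nonneg ha0 (show 0 ≤ 1 / Z - 1 / Y + (q / a - 1) / Y ^ 2 by linarith)]

/-- Doubling gains. -/
lemma phi_double {q : ℝ} (hq0 : 0 ≤ q) (hq1 : q ≤ 1) :
    q / (1 - log q) ^ 2 - 2 * q ^ 2 ≤ phi (2 * q - q ^ 2) - 2 * phi q := by
  rcases hq0.eq_or_lt with h | hq
  · subst h; simp [phi_zero]
  set q' := 2 * q - q ^ 2 with hq'
  have hqq : q ≤ q' := by nlinarith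
  have hq'1 : q' ≤ 1 := by nlinarith [sq_nonneg (1 - q)]
  have hY := one_le_den hq0 hq1
  have hY' := one_le_den (hq0.trans hqq) hq'1
  set Y := 1 - log q with hYd
  set Y' := 1 - log q' with hYd'
  have hlog : (1 - q) / 2 ≤ Y - Y' := by
    have h2 : Y - Y' = log (2 - q) := by
      rw [hYd, hYd', show q' = q * (2 - q) by rw [hq']; ring, log_mul hq.ne' (by linarith)]
      ring
    rw [h2]
    refine le_trans ?_ (one_sub_inv_le_log_of_pos (by linarith))
    rw [inv_eq_one_div, le_sub_iff_add_le, ← le_sub_iff_add_le', div_le_iff₀ (by linarith)]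
    nlinarith
  have hle : Y' ≤ Y := by linarith
  have e : phi q' - 2 * phi q = 2 * q * ((Y - Y') / (Y * Y')) - q ^ 2 / Y' := by
    rw [phi, phi, ← hYd, ← hYd', hq']; field_simp; ring
  rw [e]
  have h5 : (1 - q) / 2 / Y ^ 2 ≤ (Y - Y') / (Y * Y') :=
    div_le_div₀ (by linarith) hlog (by positivity) (by nlinarith)
  have h6 : q ^ 2 / Y' ≤ q ^ 2 := div_le_self (sq_nonneg q) hY'
  have h7 : q ^ 2 / Y ^ 2 ≤ q ^ 2 := div_le_self (sq_nonneg q) (one_le_pow₀ hY)
  have h8 := mul_le_mul_of_nonneg_left h5 (by linarith : 0 ≤ 2 * q)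
  have h9 : 2 * q * ((1 - q) / 2 / Y ^ 2) = q / Y ^ 2 - q ^ 2 / Y ^ 2 := by field_simp
  linarith

/-- The pointwise inequality. -/
lemma pointwise {a q d : ℝ} (ha0 : 0 < a) (ha1 : a ≤ 1) (hq0 : 0 < q) (hq1 : q ≤ 1)
    (hd0 : 0 < d) (hd1 : d ≤ 1) :
    2 * (a * d * (1 - log d)) - 1 / 2 * (a * d * (-log a - log d)) - CC / 8 * (a * d)
      ≤ 1 / 4 * (phi a - (phi q + dphi q * (a - q))) + a / (1 - log q) ^ 2 := by
  have hD := phi_tangent ha0.le ha1 hq0.le hq1 (fun h => absurd h hq0.ne')
  have hla : 0 ≤ -log a := by linarith [log_nonpos ha0.le ha1]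
  have hR : 0 ≤ a / (1 - log q) ^ 2 := by positivity
  set l := -log d with hl
  have hl0 : 0 ≤ l := by linarith [log_nonpos hd0.le hd1]
  have e : 2 * (a * d * (1 - log d)) - 1 / 2 * (a * d * (-log a - log d)) - CC / 8 * (a * d)
      = a * (d * (2 + 3 / 2 * l - 1 / 2 * (-log a) - 30002)) := by
    rw [hl, CC]; ring
  rw [e]
  by_cases hneg : 2 + 3 / 2 * l - 1 / 2 * (-log a) - 30002 ≤ 0
  · nlinarith [mul_nonpos_of_nonneg_of_nonpos hd0.le hneg]
  push Not at hneg
  have hl2 : (20000 : ℝ) ≤ l := by linarith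
  have hpos : a * (d * (2 + 3 / 2 * l - 1 / 2 * (-log a) - 30002)) ≤ a * (d * (2 * l)) := by
    gcongr; linarith
  have hdl : d * exp l = 1 := by
    rw [hl, exp_neg, exp_log hd0, mul_inv_cancel₀ hd0.ne']
  have hexp : l ^ 5 / 120 ≤ exp l := by
    have := pow_div_factorial_le_exp (x := l) hl0 5
    simpa [Nat.factorial] using this
  have hd5 : d * l ^ 5 ≤ 120 := by
    have := mul_le_mul_of_nonneg_left hexp hd0.le
    rw [hdl] at this
    linarith
  set Y := 1 - log q with hY
  set Ya := 1 - log a with hYa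
  have hYa1 : 1 ≤ Ya := one_le_den ha0.le ha1
  have hY1 : 1 ≤ Y := one_le_den hq0.le hq1
  have hYa4 : Ya ≤ 4 * l := by rw [hYa]; linarith
  by_cases hcase : Y ≤ 16 * l
  · have h1 : d * (2 * l) ≤ 1 / Y ^ 2 := by
      rw [le_div_iff₀ (by positivity)]
      have h2 : Y ^ 2 ≤ 256 * l ^ 2 := by nlinarith
      have h3 : (512 : ℝ) * 120 ≤ l ^ 2 := by nlinarith
      have h4 : d * (2 * l) * Y ^ 2 ≤ d * (2 * l) * (256 * l ^ 2) := by gcongr
      have h5 : 0 ≤ d * l ^ 3 := by positivity
      nlinarith [mul_le_mul_of_nonneg_left h3 h5]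
    have h6 : a * (d * (2 * l)) ≤ a / Y ^ 2 := by
      rw [div_eq_mul_one_div]; gcongr
    linarith
  · push Not at hcase
    have h1 : d * (2 * l) ≤ 1 / (32 * l) := by
      rw [le_div_iff₀ (by positivity)]
      have h3 : (64 : ℝ) * 120 ≤ l ^ 3 := by nlinarith [sq_nonneg l]
      have h5 : 0 ≤ d * l ^ 2 := by positivity
      nlinarith [mul_le_mul_of_nonneg_left h3 h5]
    have hkey : a * (1 / (8 * l)) ≤ phi a - (phi q + dphi q * (a - q)) := by
      have e2 : phi a - (phi q + dphi q * (a - q))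
          = a * (1 / Ya - 1 / Y - 1 / Y ^ 2) + q / Y ^ 2 := by
        rw [phi, phi, dphi, ← hY, ← hYa]; field_simp; ring
      have h7 : 1 / (4 * l) ≤ 1 / Ya := one_div_le_one_div_of_le (by linarith) hYa4
      have h8 : 1 / Y ≤ 1 / (16 * l) := one_div_le_one_div_of_le (by linarith) hcase.le
      have h9 : 1 / Y ^ 2 ≤ 1 / Y :=
        one_div_le_one_div_of_le (by linarith) (le_self_pow₀ hY1 two_ne_zero)
      have h10 : 1 / (8 * l) = 1 / (4 * l) - 2 * (1 / (16 * l)) := by field_simp; ring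
      have h11 : 0 ≤ q / Y ^ 2 := by positivity
      have h12 : a * (1 / (8 * l)) ≤ a * (1 / Ya - 1 / Y - 1 / Y ^ 2) := by
        gcongr; linarith
      linarith
    have h6 : a * (d * (2 * l)) ≤ a * (1 / (32 * l)) := by gcongr
    have h13 : a * (1 / (32 * l)) = 1 / 4 * (a * (1 / (8 * l))) := by field_simp; ring
    linarith

lemma split_upper {k k₁ e : ℝ} (hk1 : 0 ≤ k₁) (hk : k₁ ≤ k) (he : 0 < e) :
    negMulLog k₁ + negMulLog (k - k₁) - negMulLog k ≤ k₁ * (-log e) + e * k := by
  rcases hk1.eq_or_lt with h | h1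
  · subst h; simp; nlinarith
  have hkp : 0 < k := h1.trans_le hk
  have a1 : k₁ * (log k - log k₁ + log e) ≤ e * k - k₁ := by
    have h2 := log_le_sub_one_of_pos (div_pos (mul_pos he hkp) h1)
    rw [log_div (mul_pos he hkp).ne' h1.ne', log_mul he.ne' hkp.ne'] at h2
    have := mul_le_mul_of_nonneg_left h2 h1.le
    have e2 : k₁ * (e * k / k₁ - 1) = e * k - k₁ := by field_simp
    linarith
  have a2 : (k - k₁) * (log k - log (k - k₁)) ≤ k₁ := by
    rcases (sub_nonneg.2 hk).eq_or_lt with h0 | h0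
    · rw [← h0]; simp [hk1]
    have h2 := log_le_sub_one_of_pos (div_pos hkp h0)
    rw [log_div hkp.ne' h0.ne'] at h2
    have := mul_le_mul_of_nonneg_left h2 h0.le
    rw [mul_sub (k - k₁) (k / (k - k₁)), mul_one, mul_div_cancel₀ _ h0.ne'] at this
    linarith
  simp only [negMulLog]
  linarith

lemma split_lower {k k₁ : ℝ} (hk1 : 0 ≤ k₁) (hk : k₁ ≤ k) :
    k₁ * (log k - log k₁) ≤ negMulLog k₁ + negMulLog (k - k₁) - negMulLog k := by
  have : (k - k₁) * log (k - k₁) ≤ (k - k₁) * log k := by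
    rcases (sub_nonneg.2 hk).eq_or_lt with h0 | h0
    · rw [← h0]; simp
    exact mul_le_mul_of_nonneg_left (log_le_log h0 (by linarith)) h0.le
  simp only [negMulLog]
  linarith

/-! ### Distributions on subsets -/

/-- Entropy of a weight function. -/
noncomputable def ent {α : Type*} [Fintype α] (p : α → ℝ) : ℝ := ∑ a, negMulLog (p a)

/-- Expected size. -/
noncomputable def sz (p : Finset X → ℝ) : ℝ := ∑ S, p S * (S.card : ℝ)

/-- Marginal. -/
noncomputable def mg (p : Finset X → ℝ) (x : X) : ℝ := ∑ S, if x ∈ S then p S else 0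

variable (Γ)

/-- Law of a uniformly random translate. -/
noncomputable def psh (p : Finset X → ℝ) (T : Finset X) : ℝ :=
  (∑ g : Γ, p (g⁻¹ • T)) / Fintype.card Γ

/-- `ℓ E|V| + H(V) - H(gV)`. -/
noncomputable def gain (l : ℝ) (p : Finset X → ℝ) : ℝ := l * sz p + ent p - ent (psh Γ p)

/-- Joint law of `(gV, gV ∩ gV')`. -/
noncomputable def Jn (p : Finset X → ℝ) (T z : Finset X) : ℝ :=
  (∑ g : Γ, ∑ S, if T ∩ g • S = z then p (g⁻¹ • T) * p S else 0) / Fintype.card Γ

/-- Law of `gV ∩ gV'`. -/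
noncomputable def Zl (p : Finset X → ℝ) (z : Finset X) : ℝ := ∑ T, Jn Γ p T z

/-- Joint law of `(V, c)`, `c` being `V ∩ V'` resampled given `V`. -/
noncomputable def rj (p : Finset X → ℝ) (S d : Finset X) : ℝ :=
  p S * (Jn Γ p S d / psh Γ p S)

/-- Law of `c`. -/
noncomputable def rc (p : Finset X → ℝ) (d : Finset X) : ℝ := ∑ S, rj Γ p S d

variable {Γ}

/-- Law of `V ∪ V'`. -/
noncomputable def uni (p : Finset X → ℝ) (T : Finset X) : ℝ :=
  ∑ S, ∑ S', if S ∪ S' = T then p S * p S' else 0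

/-- The potential. -/
noncomputable def Fp (p : Finset X → ℝ) : ℝ := CC * sz p - ∑ x, phi (mg p x)

/-- A probability distribution on the subsets of `A`. -/
def IsD (A : Finset X) (p : Finset X → ℝ) : Prop :=
  (∀ S, 0 ≤ p S) ∧ (∑ S, p S = 1) ∧ ∀ S, p S ≠ 0 → S ⊆ A

lemma N_pos : (0 : ℝ) < Fintype.card Γ := by exact_mod_cast Fintype.card_pos

lemma avg_const (c : ℝ) : (∑ _g : Γ, c) / Fintype.card Γ = c := by
  rw [sum_const, card_univ, nsmul_eq_mul, mul_div_cancel_left₀ _ N_pos.ne']

lemma sum_reindex (g : Γ) (f : Finset X → ℝ) : ∑ T, f T = ∑ S, f (g • S) :=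
  (Fintype.sum_equiv (MulAction.toPerm g) _ _ fun _ => rfl).symm

lemma mg_nonneg {p : Finset X → ℝ} (hp : ∀ S, 0 ≤ p S) (x : X) : 0 ≤ mg p x :=
  sum_nonneg fun S _ => by split_ifs <;> simp [hp S]

lemma mg_le_one {p : Finset X → ℝ} (hp : ∀ S, 0 ≤ p S) (h1 : ∑ S, p S = 1) (x : X) :
    mg p x ≤ 1 :=
  (sum_le_sum fun S _ => by split_ifs <;> simp [hp S]).trans_eq h1

lemma sz_nonneg {p : Finset X → ℝ} (hp : ∀ S, 0 ≤ p S) : 0 ≤ sz p :=
  sum_nonneg fun S _ => mul_nonneg (hp S) (Nat.cast_nonneg _)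

lemma sz_eq (p : Finset X → ℝ) : sz p = ∑ x, mg p x := by
  unfold sz mg
  rw [sum_comm]
  refine sum_congr rfl fun S _ => ?_
  rw [sum_ite_mem, univ_inter, sum_const, nsmul_eq_mul, mul_comm]

lemma Fp_le {p : Finset X → ℝ} (hp : ∀ S, 0 ≤ p S) (h1 : ∑ S, p S = 1) : Fp p ≤ CC * sz p :=
  sub_le_self _ (sum_nonneg fun x _ => phi_nonneg (mg_nonneg hp x) (mg_le_one hp h1 x))

lemma Fp_nonneg {p : Finset X → ℝ} (hp : ∀ S, 0 ≤ p S) (h1 : ∑ S, p S = 1) : 0 ≤ Fp p := by
  rw [Fp, sub_nonneg, sz_eq, mul_sum]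
  refine sum_le_sum fun x _ => (phi_le (mg_nonneg hp x) (mg_le_one hp h1 x)).trans ?_
  exact le_mul_of_one_le_left (mg_nonneg hp x) (by norm_num [CC])

lemma psh_nonneg {p : Finset X → ℝ} (hp : ∀ S, 0 ≤ p S) (T : Finset X) : 0 ≤ psh Γ p T :=
  div_nonneg (sum_nonneg fun g _ => hp _) N_pos.le

lemma psh_pair (p f : Finset X → ℝ) :
    ∑ T, psh Γ p T * f T = (∑ g : Γ, ∑ S, p S * f (g • S)) / Fintype.card Γ := by
  simp only [psh, div_mul_eq_mul_div, ← sum_div, sum_mul]
  congr 1
  rw [sum_comm]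
  refine sum_congr rfl fun g _ => ?_
  rw [sum_reindex g]
  simp

lemma psh_sum {p : Finset X → ℝ} (h1 : ∑ S, p S = 1) : ∑ T, psh Γ p T = 1 := by
  have := psh_pair (Γ := Γ) p (fun _ => (1 : ℝ))
  simp only [mul_one, h1] at this
  rw [this, avg_const]

lemma psh_smul (p : Finset X → ℝ) (h : Γ) (T : Finset X) : psh Γ p (h • T) = psh Γ p T := by
  unfold psh
  congr 1
  refine Fintype.sum_equiv (Equiv.mulLeft h⁻¹) _ _ fun g => ?_
  simp [mul_smul]

lemma psh_pair_inv (p f : Finset X → ℝ) (hf : ∀ (g : Γ) S, f (g • S) = f S) :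
    ∑ T, psh Γ p T * f T = ∑ S, p S * f S := by
  rw [psh_pair]
  simp only [hf, avg_const]

lemma sz_psh (p : Finset X → ℝ) : sz (psh Γ p) = sz p :=
  psh_pair_inv p _ fun g S => by rw [card_smul_finset]

lemma psh_self_ge {p : Finset X → ℝ} (hp : ∀ S, 0 ≤ p S) (g : Γ) (S : Finset X) :
    p S / Fintype.card Γ ≤ psh Γ p (g • S) := by
  refine div_le_div_of_nonneg_right ?_ N_pos.le
  refine le_of_eq_of_le ?_ (single_le_sum (fun h _ => hp (h⁻¹ • g • S)) (mem_univ g))
  simp

lemma fib_le' (S T : Finset X) :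
    ((univ : Finset Γ).filter fun g => g • S = T).card
      ≤ ((univ : Finset Γ).filter fun g => g • S = S).card := by
  classical
  by_cases h : ∃ g : Γ, g • S = T
  · obtain ⟨g₀, hg₀⟩ := h
    refine card_le_card_of_injOn (fun g => g₀⁻¹ * g) ?_ (fun a _ b _ hab => mul_left_cancel hab)
    intro g hg
    simp only [coe_filter, mem_univ, true_and, Set.mem_ofPred_eq] at hg ⊢
    rw [mul_smul, hg, ← hg₀, inv_smul_smul]
  · push Not at h
    have : ((univ : Finset Γ).filter fun g => g • S = T) = ∅ :=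
      filter_eq_empty_iff.2 fun g _ => h g
    simp [this]

lemma psh_le {Q : ℝ} (hQ : 0 < Q) {A : Finset X} (hA : Thin Γ Q A) {p : Finset X → ℝ}
    (hp : IsD A p) (T : Finset X) : psh Γ p T ≤ Q ^ T.card := by
  classical
  obtain ⟨h0, h1, h2⟩ := hp
  have hsum : ∑ g : Γ, p (g⁻¹ • T)
      = ∑ S, p S * (((univ : Finset Γ).filter fun g => g • S = T).card : ℝ) := by
    simp only [← sum_boole, mul_sum, mul_ite, mul_one, mul_zero]
    rw [sum_comm]
    refine sum_congr rfl fun g _ => ?_
    simp [eq_inv_smul_iff.symm]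
  unfold psh
  rw [hsum, sum_div]
  calc ∑ S, p S * (((univ : Finset Γ).filter fun g => g • S = T).card : ℝ) / Fintype.card Γ
      ≤ ∑ S, p S * Q ^ T.card := by
        refine sum_le_sum fun S _ => ?_
        rcases eq_or_ne (p S) 0 with hS | hS
        · simp [hS]
        rw [mul_div_assoc]
        refine mul_le_mul_of_nonneg_left ?_ (h0 S)
        by_cases h : ∃ g : Γ, g • S = T
        · obtain ⟨g, hg⟩ := h
          rw [← hg, card_smul_finset, hg]
          refine le_trans ?_ (hA S (h2 S hS))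
          exact div_le_div_of_nonneg_right (Nat.cast_le.2 (fib_le' S T)) N_pos.le
        · push Not at h
          have : ((univ : Finset Γ).filter fun g => g • S = T) = ∅ :=
            filter_eq_empty_iff.2 fun g _ => h g
          simp [this, hQ.le]
    _ = Q ^ T.card := by rw [← sum_mul, h1, one_mul]

/-- Thinness bounds the entropy of a random translate from below. -/
lemma ent_psh_ge {Q : ℝ} (hQ : 0 < Q) {A : Finset X} (hA : Thin Γ Q A) {p : Finset X → ℝ}
    (hp : IsD A p) : -log Q * sz p ≤ ent (psh Γ p) := by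
  rw [← sz_psh (Γ := Γ) p, ent, sz, mul_sum]
  refine sum_le_sum fun T _ => ?_
  rcases (psh_nonneg (Γ := Γ) hp.1 T).eq_or_lt with h | h
  · simp [← h]
  have h1 := log_le_log h (psh_le hQ hA hp T)
  rw [log_pow] at h1
  have := mul_le_mul_of_nonneg_left h1 h.le
  simp only [negMulLog]
  nlinarith

/-! ### The resampled intersection -/

lemma Jn_nonneg {p : Finset X → ℝ} (hp : ∀ S, 0 ≤ p S) (T z : Finset X) : 0 ≤ Jn Γ p T z :=
  div_nonneg (sum_nonneg fun g _ => sum_nonneg fun S _ => by
    split_ifs <;> simp [mul_nonneg (hp _) (hp _)]) N_pos.le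

lemma Jn_row {p : Finset X → ℝ} (h1 : ∑ S, p S = 1) (T : Finset X) :
    ∑ z, Jn Γ p T z = psh Γ p T := by
  unfold Jn psh
  rw [← sum_div]
  congr 1
  rw [sum_comm]
  refine sum_congr rfl fun g _ => ?_
  rw [sum_comm]
  simp [← mul_sum, h1]

lemma Jn_le {p : Finset X → ℝ} (hp : ∀ S, 0 ≤ p S) (h1 : ∑ S, p S = 1) (T z : Finset X) :
    Jn Γ p T z ≤ psh Γ p T := by
  rw [← Jn_row h1]
  exact single_le_sum (fun z _ => Jn_nonneg hp T z) (mem_univ z)

lemma Jn_eq_zero {p : Finset X → ℝ} {T z : Finset X} (h : ¬ z ⊆ T) : Jn Γ p T z = 0 := by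
  have : ∀ (g : Γ) S, T ∩ g • S ≠ z := fun g S hz => h (hz ▸ inter_subset_left)
  simp [Jn, this]

lemma Jn_smul (p : Finset X → ℝ) (h : Γ) (T z : Finset X) :
    Jn Γ p (h • T) (h • z) = Jn Γ p T z := by
  unfold Jn
  congr 1
  refine Fintype.sum_equiv (Equiv.mulLeft h⁻¹) _ _ fun g => sum_congr rfl fun S _ => ?_
  simp only [Equiv.coe_mulLeft]
  have e1 : h • T ∩ g • S = h • (T ∩ (h⁻¹ * g) • S) := by
    rw [smul_finset_inter, mul_smul, smul_inv_smul]
  have e2 : g⁻¹ • h • T = (h⁻¹ * g)⁻¹ • T := by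
    rw [mul_inv_rev, inv_inv, mul_smul]
  rw [e1, e2]
  simp [smul_left_cancel_iff]

lemma Jn_pair (p : Finset X → ℝ) (F : Finset X → Finset X → ℝ) :
    ∑ T, ∑ z, Jn Γ p T z * F T z
      = (∑ g : Γ, ∑ S, ∑ S', p S * p S' * F (g • S) (g • (S ∩ S'))) / Fintype.card Γ := by
  have h : ∀ T, ∑ z, Jn Γ p T z * F T z
      = (∑ g : Γ, ∑ S, p (g⁻¹ • T) * p S * F T (T ∩ g • S)) / Fintype.card Γ := by
    intro T
    simp only [Jn, div_mul_eq_mul_div, ← sum_div, sum_mul, ite_mul, zero_mul]
    congr 1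
    rw [sum_comm]
    refine sum_congr rfl fun g _ => ?_
    rw [sum_comm]
    simp
  simp only [h, ← sum_div]
  congr 1
  rw [sum_comm]
  refine sum_congr rfl fun g _ => ?_
  rw [sum_reindex g]
  refine sum_congr rfl fun S _ => sum_congr rfl fun S' _ => ?_
  rw [inv_smul_smul, smul_finset_inter]

lemma rj_nonneg {p : Finset X → ℝ} (hp : ∀ S, 0 ≤ p S) (S d : Finset X) : 0 ≤ rj Γ p S d :=
  mul_nonneg (hp S) (div_nonneg (Jn_nonneg hp _ _) (psh_nonneg hp _))

lemma psh_pos {p : Finset X → ℝ} (hp : ∀ S, 0 ≤ p S) (S : Finset X) (h : p S ≠ 0) :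
    0 < psh Γ p S := by
  have h1 := psh_self_ge (Γ := Γ) hp (1 : Γ) S
  rw [one_smul] at h1
  exact lt_of_lt_of_le (div_pos (lt_of_le_of_ne (hp S) (Ne.symm h)) N_pos) h1

lemma rj_row {p : Finset X → ℝ} (hp : ∀ S, 0 ≤ p S) (h1 : ∑ S, p S = 1) (S : Finset X) :
    ∑ d, rj Γ p S d = p S := by
  rcases eq_or_ne (p S) 0 with h | h
  · simp [rj, h]
  simp only [rj, ← mul_sum, ← sum_div, Jn_row h1, div_self (psh_pos (Γ := Γ) hp S h).ne', mul_one]

lemma rj_subset {p : Finset X → ℝ} {S d : Finset X} (h : rj Γ p S d ≠ 0) : d ⊆ S := by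
  by_contra hn
  exact h (by simp [rj, Jn_eq_zero (Γ := Γ) (p := p) hn])

lemma rc_isD {A : Finset X} {p : Finset X → ℝ} (hp : IsD A p) : IsD A (rc Γ p) := by
  obtain ⟨h0, h1, h2⟩ := hp
  refine ⟨fun d => sum_nonneg fun S _ => rj_nonneg h0 S d, ?_, fun d hd => ?_⟩
  · unfold rc
    rw [sum_comm]
    simp only [rj_row (Γ := Γ) h0 h1, h1]
  · obtain ⟨S, -, hS⟩ := exists_ne_zero_of_sum_ne_zero hd
    exact (rj_subset hS).trans (h2 S (left_ne_zero_of_mul hS))

/-- A random translate of `c` has the law of `gV ∩ gV'`. -/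
lemma psh_rc {p : Finset X → ℝ} (hp : ∀ S, 0 ≤ p S) (h1 : ∑ S, p S = 1) :
    psh Γ (rc Γ p) = Zl Γ p := by
  funext z
  unfold psh rc
  have e : ∀ (g : Γ) S, rj Γ p S (g⁻¹ • z)
      = p S * (Jn Γ p (g • S) z / psh Γ p (g • S)) := by
    intro g S
    rw [rj, psh_smul, ← Jn_smul p g S (g⁻¹ • z), smul_inv_smul]
  simp only [e]
  rw [← psh_pair p (fun T => Jn Γ p T z / psh Γ p T)]
  refine sum_congr rfl fun T _ => ?_
  rcases (psh_nonneg (Γ := Γ) hp T).eq_or_lt with h | h
  · have := le_antisymm (h ▸ Jn_le (Γ := Γ) hp h1 T z) (Jn_nonneg hp T z)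
    rw [← h, this]; simp
  · field_simp

/-- `H(gV, gW) - H(gV) = H(V, c) - H(V)`. -/
lemma cond_ent {p : Finset X → ℝ} (hp : ∀ S, 0 ≤ p S) (h1 : ∑ S, p S = 1) :
    (∑ T, ∑ z, negMulLog (Jn Γ p T z)) - ent (psh Γ p)
      = (∑ S, ∑ d, negMulLog (rj Γ p S d)) - ent p := by
  set E : Finset X → ℝ := fun T => ∑ z, negMulLog (Jn Γ p T z / psh Γ p T) with hE
  have a : ∀ T, ∑ z, negMulLog (Jn Γ p T z) = negMulLog (psh Γ p T) + psh Γ p T * E T := by
    intro T
    rcases (psh_nonneg (Γ := Γ) hp T).eq_or_lt with h | h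
    · have hz : ∀ z, Jn Γ p T z = 0 := fun z =>
        le_antisymm (h ▸ Jn_le (Γ := Γ) hp h1 T z) (Jn_nonneg hp T z)
      simp [← h, hz]
    have e : ∀ z, negMulLog (Jn Γ p T z) = (Jn Γ p T z / psh Γ p T) * negMulLog (psh Γ p T)
        + psh Γ p T * negMulLog (Jn Γ p T z / psh Γ p T) := by
      intro z
      rw [← negMulLog_mul, mul_div_cancel₀ _ h.ne']
    simp only [e, sum_add_distrib, ← sum_mul, ← sum_div, Jn_row h1, div_self h.ne', one_mul, E,
      mul_sum]
  have b : ∀ S, ∑ d, negMulLog (rj Γ p S d) = negMulLog (p S) + p S * E S := by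
    intro S
    rcases eq_or_ne (p S) 0 with h | h
    · simp [rj, h]
    have hP := psh_pos (Γ := Γ) hp S h
    simp only [rj, negMulLog_mul, sum_add_distrib, ← sum_mul, ← sum_div, Jn_row h1,
      div_self hP.ne', one_mul, E, mul_sum]
  have hinv : ∀ (g : Γ) T, E (g • T) = E T := by
    intro g T
    simp only [E]
    rw [sum_reindex g]
    simp only [Jn_smul, psh_smul]
  simp only [a, b, sum_add_distrib, ent, psh_pair_inv p E hinv]
  ring

/-! ### Union -/

lemma uni_pair (p f : Finset X → ℝ) :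
    ∑ T, uni p T * f T = ∑ S, ∑ S', p S * p S' * f (S ∪ S') := by
  simp only [uni, sum_mul, ite_mul, zero_mul]
  rw [sum_comm]
  refine sum_congr rfl fun S _ => ?_
  rw [sum_comm]
  simp

lemma uni_isD {A : Finset X} {p : Finset X → ℝ} (hp : IsD A p) : IsD A (uni p) := by
  obtain ⟨h0, h1, h2⟩ := hp
  refine ⟨fun T => sum_nonneg fun S _ => sum_nonneg fun S' _ => by
    split_ifs <;> simp [mul_nonneg (h0 _) (h0 _)], ?_, fun T hT => ?_⟩
  · have := uni_pair p (fun _ => (1 : ℝ))
    simp only [mul_one, ← mul_sum, h1] at this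
    simpa [h1] using this
  · obtain ⟨S, -, hS⟩ := exists_ne_zero_of_sum_ne_zero hT
    obtain ⟨S', -, hS'⟩ := exists_ne_zero_of_sum_ne_zero hS
    split_ifs at hS' with h
    · exact h ▸ union_subset (h2 S (left_ne_zero_of_mul hS')) (h2 S' (right_ne_zero_of_mul hS'))
    · exact absurd rfl hS'

lemma mg_uni {p : Finset X → ℝ} (h1 : ∑ S, p S = 1) (x : X) :
    mg (uni p) x = 2 * mg p x - mg p x ^ 2 := by
  have e : mg (uni p) x = ∑ T, uni p T * (if x ∈ T then (1 : ℝ) else 0) := by
    simp [mg, mul_ite]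
  have e2 : ∀ S, (if x ∈ S then p S else 0) = p S * (if x ∈ S then (1 : ℝ) else 0) := by
    intro S; split_ifs <;> simp
  have e3 : ∀ S S', p S * p S' * (if x ∈ S ∪ S' then (1 : ℝ) else 0)
      = (if x ∈ S then p S else 0) * p S' + p S * (if x ∈ S' then p S' else 0)
        - (if x ∈ S then p S else 0) * (if x ∈ S' then p S' else 0) := by
    intro S S'
    by_cases a : x ∈ S <;> by_cases b : x ∈ S' <;> simp [a, b]
  rw [e, uni_pair]
  simp only [e3, sum_sub_distrib, sum_add_distrib, ← mul_sum, ← sum_mul, h1, mg]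
  ring

lemma sz_uni {p : Finset X → ℝ} (h1 : ∑ S, p S = 1) :
    sz (uni p) = 2 * sz p - ∑ x, mg p x ^ 2 := by
  simp only [sz_eq, mg_uni h1, sum_sub_distrib, ← mul_sum]

lemma sz_rc {p : Finset X → ℝ} (hp : ∀ S, 0 ≤ p S) (h1 : ∑ S, p S = 1) :
    sz (rc Γ p) = ∑ x, mg p x ^ 2 := by
  rw [← sz_psh (Γ := Γ), psh_rc hp h1]
  unfold sz Zl
  simp only [sum_mul]
  rw [sum_comm, Jn_pair p (fun _ z => (z.card : ℝ))]
  simp only [card_smul_finset, avg_const]
  have : ∀ S S' : Finset X, p S * p S' * ((S ∩ S').card : ℝ)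
      = ∑ x, (if x ∈ S then p S else 0) * (if x ∈ S' then p S' else 0) := by
    intro S S'
    rw [← inter_eq_right.2 (subset_univ (S ∩ S')), inter_eq_right.2 (subset_univ (S ∩ S'))]
    calc p S * p S' * ((S ∩ S').card : ℝ) = ∑ x ∈ S ∩ S', p S * p S' := by
          rw [sum_const, nsmul_eq_mul]; ring
      _ = ∑ x, if x ∈ S ∩ S' then p S * p S' else 0 := by rw [sum_ite_mem, univ_inter]
      _ = _ := sum_congr rfl fun x _ => by
          by_cases a : x ∈ S <;> by_cases b : x ∈ S' <;> simp [a, b]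
  simp only [this]
  simp only [sum_comm (γ := X), sq, mg, sum_mul_sum]

variable (Γ) in
/-- The term compared with the law of a triple `(g, V, V')`. -/
noncomputable def tt (p : Finset X → ℝ) (g : Γ) (S S' : Finset X) : ℝ :=
  uni p (S ∪ S') * (Jn Γ p (g • S) (g • (S ∩ S')) * Jn Γ p (g • S') (g • (S ∩ S'))
    / Zl Γ p (g • (S ∩ S'))) / psh Γ (uni p) (g • (S ∪ S'))

lemma uni_nonneg {p : Finset X → ℝ} (hp : ∀ S, 0 ≤ p S) (T : Finset X) : 0 ≤ uni p T :=
  sum_nonneg fun S _ => sum_nonneg fun S' _ => by split_ifs <;> simp [mul_nonneg (hp _) (hp _)]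

lemma Zl_nonneg {p : Finset X → ℝ} (hp : ∀ S, 0 ≤ p S) (z : Finset X) : 0 ≤ Zl Γ p z :=
  sum_nonneg fun T _ => Jn_nonneg hp _ _

lemma star_point {p : Finset X → ℝ} (hp : ∀ S, 0 ≤ p S) (g : Γ) (S S' : Finset X) :
    p S * p S' * ((-log (p S)) + (-log (p S'))
        - (-log (uni p (S ∪ S'))) + (-log (psh Γ (uni p) (g • (S ∪ S'))))
        + (-log (Zl Γ p (g • (S ∩ S')))) - (-log (Jn Γ p (g • S) (g • (S ∩ S'))))
        - (-log (Jn Γ p (g • S') (g • (S ∩ S'))))) ≤ tt Γ p g S S' - p S * p S' := by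
  have hu := uni_nonneg hp
  have htt0 : 0 ≤ tt Γ p g S S' := by
    simp only [tt]
    exact div_nonneg (mul_nonneg (hu _) (div_nonneg (mul_nonneg (Jn_nonneg hp _ _)
      (Jn_nonneg hp _ _)) (sum_nonneg fun T _ => Jn_nonneg hp _ _))) (psh_nonneg hu _)
  rcases (mul_nonneg (hp S) (hp S')).eq_or_lt with h | h
  · rw [← h]; simpa using htt0
  have hS : 0 < p S := (hp S).lt_of_ne fun h0 => by simp [← h0] at h
  have hS' : 0 < p S' := (hp S').lt_of_ne fun h0 => by simp [← h0] at h
  have hU : 0 < uni p (S ∪ S') := by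
    refine h.trans_le ?_
    refine le_trans ?_ (single_le_sum (fun T _ => sum_nonneg fun T' _ => by
      split_ifs <;> simp [mul_nonneg (hp _) (hp _)]) (mem_univ S))
    refine le_trans ?_ (single_le_sum (fun T' _ => by
      split_ifs <;> simp [mul_nonneg (hp _) (hp _)]) (mem_univ S'))
    simp
  have hP2 : 0 < psh Γ (uni p) (g • (S ∪ S')) :=
    (div_pos hU N_pos).trans_le (psh_self_ge hu g _)
  have hJpos : ∀ A B, 0 < p A → 0 < p B → 0 < Jn Γ p (g • A) (g • (A ∩ B)) := by
    intro A B hA hB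
    refine div_pos ((mul_pos hA hB).trans_le ?_) N_pos
    refine le_trans ?_ (single_le_sum (fun g' _ => sum_nonneg fun T' _ => by
      split_ifs <;> simp [mul_nonneg (hp _) (hp _)]) (mem_univ g))
    refine le_trans ?_ (single_le_sum (fun T' _ => by
      split_ifs <;> simp [mul_nonneg (hp _) (hp _)]) (mem_univ B))
    rw [if_pos (smul_finset_inter).symm, inv_smul_smul]
  have hJ := hJpos S S' hS hS'
  have hJ' : 0 < Jn Γ p (g • S') (g • (S ∩ S')) := inter_comm S' S ▸ hJpos S' S hS' hS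
  have hZ : 0 < Zl Γ p (g • (S ∩ S')) :=
    hJ.trans_le (single_le_sum (fun T _ => Jn_nonneg hp T _) (mem_univ _))
  have hR : 0 < tt Γ p g S S' / (p S * p S') := by
    simp only [tt]; positivity
  have hlog : log (tt Γ p g S S' / (p S * p S')) = log (uni p (S ∪ S'))
      + (log (Jn Γ p (g • S) (g • (S ∩ S'))) + log (Jn Γ p (g • S') (g • (S ∩ S')))
        - log (Zl Γ p (g • (S ∩ S')))) - log (psh Γ (uni p) (g • (S ∪ S')))
      - (log (p S) + log (p S')) := by
    simp only [tt]
    rw [log_div (by positivity) h.ne', log_div (by positivity) hP2.ne',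
      log_mul hU.ne' (by positivity), log_div (by positivity) hZ.ne', log_mul hJ.ne' hJ'.ne',
      log_mul hS.ne' hS'.ne']
  have := mul_le_mul_of_nonneg_left (log_le_sub_one_of_pos hR) h.le
  rw [mul_sub, mul_one, mul_div_cancel₀ _ h.ne', hlog] at this
  linarith

lemma star_sum {p : Finset X → ℝ} (hp : ∀ S, 0 ≤ p S) (h1 : ∑ S, p S = 1) :
    (∑ g : Γ, ∑ S, ∑ S', tt Γ p g S S') / Fintype.card Γ ≤ 1 := by
  set N : ℝ := (Fintype.card Γ : ℝ) with hN
  have hre : ∀ g : Γ, ∑ S, ∑ S', tt Γ p g S S' = ∑ x, ∑ y, uni p (g⁻¹ • (x ∪ y))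
      * (Jn Γ p x (x ∩ y) * Jn Γ p y (x ∩ y) / Zl Γ p (x ∩ y)) / psh Γ (uni p) (x ∪ y) := by
    intro g
    symm
    rw [sum_reindex g]
    refine sum_congr rfl fun S _ => ?_
    rw [sum_reindex g]
    refine sum_congr rfl fun S' _ => ?_
    simp only [tt, ← smul_finset_union, ← smul_finset_inter, inv_smul_smul]
  simp only [hre]
  rw [sum_comm, sum_div]
  calc ∑ x, (∑ g : Γ, ∑ y, uni p (g⁻¹ • (x ∪ y))
        * (Jn Γ p x (x ∩ y) * Jn Γ p y (x ∩ y) / Zl Γ p (x ∩ y))
          / psh Γ (uni p) (x ∪ y)) / N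
      ≤ ∑ x, ∑ y, ∑ z, Jn Γ p x z * Jn Γ p y z / Zl Γ p z := by
        refine sum_le_sum fun x _ => ?_
        rw [sum_comm, sum_div]
        refine sum_le_sum fun y _ => ?_
        have hz : 0 ≤ Jn Γ p x (x ∩ y) * Jn Γ p y (x ∩ y) / Zl Γ p (x ∩ y) :=
          div_nonneg (mul_nonneg (Jn_nonneg hp _ _) (Jn_nonneg hp _ _))
            (sum_nonneg fun T _ => Jn_nonneg hp _ _)
        calc (∑ g : Γ, uni p (g⁻¹ • (x ∪ y))
              * (Jn Γ p x (x ∩ y) * Jn Γ p y (x ∩ y) / Zl Γ p (x ∩ y))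
                / psh Γ (uni p) (x ∪ y)) / N
            = psh Γ (uni p) (x ∪ y) / psh Γ (uni p) (x ∪ y)
                * (Jn Γ p x (x ∩ y) * Jn Γ p y (x ∩ y) / Zl Γ p (x ∩ y)) := by
              rw [← sum_div, ← sum_mul]
              simp only [psh, hN]
              ring
          _ ≤ Jn Γ p x (x ∩ y) * Jn Γ p y (x ∩ y) / Zl Γ p (x ∩ y) :=
              mul_le_of_le_one_left hz (div_self_le_one _)
          _ ≤ _ := single_le_sum (f := fun z => Jn Γ p x z * Jn Γ p y z / Zl Γ p z)
              (fun z _ => div_nonneg (mul_nonneg (Jn_nonneg hp _ _) (Jn_nonneg hp _ _))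
                (sum_nonneg fun T _ => Jn_nonneg hp _ _)) (mem_univ _)
    _ = ∑ z, Zl Γ p z * Zl Γ p z / Zl Γ p z := by
        simp only [Zl, sum_mul_sum, sum_div]
        rw [sum_comm]
        refine (sum_congr rfl fun y _ => sum_comm).trans ?_
        rw [sum_comm]
        exact sum_congr rfl fun z _ => sum_comm
    _ = ∑ z, Zl Γ p z := sum_congr rfl fun z _ => mul_self_div_self _
    _ = 1 := by
        unfold Zl
        rw [sum_comm]
        simp only [Jn_row h1]
        exact psh_sum h1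

/-- The doubling inequality. -/
lemma star {p : Finset X → ℝ} (hp : ∀ S, 0 ≤ p S) (h1 : ∑ S, p S = 1) :
    2 * ent p - ent (uni p) + ent (psh Γ (uni p)) + ent (Zl Γ p)
      - 2 * ∑ T, ∑ z, negMulLog (Jn Γ p T z) ≤ 0 := by
  set N : ℝ := (Fintype.card Γ : ℝ) with hN
  have hu : ∀ T, 0 ≤ uni p T := fun T => sum_nonneg fun S _ => sum_nonneg fun S' _ => by
    split_ifs <;> simp [mul_nonneg (hp _) (hp _)]
  -- each entropy as an average over triples
  have e1 : ent p = (∑ g : Γ, ∑ S, ∑ S', p S * p S' * (-log (p S))) / N := by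
    rw [avg_const, ent]
    refine sum_congr rfl fun S _ => ?_
    rw [← sum_mul, ← mul_sum, h1]; simp [negMulLog]
  have e1' : ent p = (∑ g : Γ, ∑ S, ∑ S', p S * p S' * (-log (p S'))) / N := by
    rw [avg_const, ent, sum_comm]
    refine sum_congr rfl fun S' _ => ?_
    rw [← sum_mul, ← sum_mul, h1]; simp [negMulLog]
  have e2 : ent (uni p) = (∑ g : Γ, ∑ S, ∑ S', p S * p S' * (-log (uni p (S ∪ S')))) / N := by
    rw [avg_const, ← uni_pair p (fun T => -log (uni p T)), ent]
    exact sum_congr rfl fun T _ => by simp [negMulLog]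
  have e3 : ent (psh Γ (uni p))
      = (∑ g : Γ, ∑ S, ∑ S', p S * p S' * (-log (psh Γ (uni p) (g • (S ∪ S'))))) / N := by
    have h := psh_pair (Γ := Γ) (uni p) (fun T => -log (psh Γ (uni p) T))
    have h' : ∀ g : Γ, ∑ S, uni p S * (-log (psh Γ (uni p) (g • S)))
        = ∑ S, ∑ S', p S * p S' * (-log (psh Γ (uni p) (g • (S ∪ S')))) :=
      fun g => uni_pair p (fun T => -log (psh Γ (uni p) (g • T)))
    simp only [h'] at h
    rw [← h, ent]
    exact sum_congr rfl fun T _ => by simp [negMulLog]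
  have e4 : ent (Zl Γ p)
      = (∑ g : Γ, ∑ S, ∑ S', p S * p S' * (-log (Zl Γ p (g • (S ∩ S'))))) / N := by
    rw [← Jn_pair p (fun _ z => -log (Zl Γ p z)), sum_comm, ent]
    refine sum_congr rfl fun z _ => ?_
    rw [← sum_mul]
    simp [negMulLog, Zl]
  have e5 : ∑ T, ∑ z, negMulLog (Jn Γ p T z)
      = (∑ g : Γ, ∑ S, ∑ S', p S * p S' * (-log (Jn Γ p (g • S) (g • (S ∩ S'))))) / N := by
    rw [← Jn_pair p (fun T z => -log (Jn Γ p T z))]
    exact sum_congr rfl fun T _ => sum_congr rfl fun z _ => by simp [negMulLog]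
  have e5' : ∑ T, ∑ z, negMulLog (Jn Γ p T z)
      = (∑ g : Γ, ∑ S, ∑ S', p S * p S' * (-log (Jn Γ p (g • S') (g • (S ∩ S'))))) / N := by
    rw [e5]
    refine congrArg (fun t : ℝ => t / N) ?_
    refine sum_congr rfl fun g _ => ?_
    rw [sum_comm]
    refine sum_congr rfl fun S _ => sum_congr rfl fun S' _ => ?_
    rw [inter_comm S' S, mul_comm (p S') (p S)]
  have hsum := star_sum (Γ := Γ) hp h1
  have hone : (∑ g : Γ, ∑ S, ∑ S', p S * p S') / N = 1 := by
    rw [avg_const, ← sum_mul_sum, h1, one_mul]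
  have main : (∑ g : Γ, ∑ S, ∑ S', p S * p S' * ((-log (p S)) + (-log (p S'))
        - (-log (uni p (S ∪ S'))) + (-log (psh Γ (uni p) (g • (S ∪ S'))))
        + (-log (Zl Γ p (g • (S ∩ S')))) - (-log (Jn Γ p (g • S) (g • (S ∩ S'))))
        - (-log (Jn Γ p (g • S') (g • (S ∩ S')))))) / N
      ≤ (∑ g : Γ, ∑ S, ∑ S', (tt Γ p g S S' - p S * p S')) / N :=
    div_le_div_of_nonneg_right (sum_le_sum fun g _ => sum_le_sum fun S _ =>
      sum_le_sum fun S' _ => star_point hp g S S') (by positivity)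
  simp only [mul_add, mul_sub, sum_add_distrib, sum_sub_distrib, add_div, sub_div, ← e1, ← e1',
    ← e2, ← e3, ← e4, ← e5, ← e5', hone] at main
  linarith

/-- Conditioning. -/
lemma gain_mixture (l : ℝ) (r : Finset X → Finset X → ℝ) (hr : ∀ S z, 0 ≤ r S z)
    (h1 : ∑ z, ∑ S, r S z = 1) :
    gain Γ l (fun S => ∑ z, r S z)
      ≤ ent (fun z => ∑ S, r S z)
        + ∑ z, (∑ S, r S z) * gain Γ l (fun S => r S z / ∑ S', r S' z) := by
  set w : Finset X → ℝ := fun z => ∑ S, r S z with hw
  set c : Finset X → Finset X → ℝ := fun z S => r S z / w z with hc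
  have hw0 : ∀ z, 0 ≤ w z := fun z => sum_nonneg fun S _ => hr S z
  have hrc : ∀ S z, r S z = w z * c z S := by
    intro S z
    rcases (hw0 z).eq_or_lt with h | h
    · have : r S z = 0 := le_antisymm
        (h ▸ single_le_sum (f := fun S => r S z) (fun S _ => hr S z) (mem_univ S)) (hr S z)
      simp [c, this]
    · simp [c, mul_div_cancel₀ _ h.ne']
  have hc0 : ∀ z S, 0 ≤ c z S := fun z S => div_nonneg (hr S z) (hw0 z)
  have hsz : sz (fun S => ∑ z, r S z) = ∑ z, w z * sz (c z) := by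
    simp only [sz, sum_mul, mul_sum]
    rw [sum_comm]
    exact sum_congr rfl fun z _ => sum_congr rfl fun S _ => by rw [hrc, mul_assoc]
  have hA : ent (fun S => ∑ z, r S z) ≤ ent w + ∑ z, w z * ent (c z) := by
    calc ent (fun S => ∑ z, r S z) ≤ ∑ S, ∑ z, negMulLog (r S z) := by
          refine sum_le_sum fun S _ => ?_
          have e : negMulLog (∑ z, r S z) = ∑ z, -(r S z * log (∑ z', r S z')) := by
            rw [sum_neg_distrib, ← sum_mul]; simp [negMulLog]
          rw [e]
          refine sum_le_sum fun z _ => ?_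
          rcases (hr S z).eq_or_lt with h | h
          · simp [← h]
          · have := mul_le_mul_of_nonneg_left (log_le_log h
              (single_le_sum (fun z _ => hr S z) (mem_univ z))) h.le
            simp only [negMulLog]; linarith
      _ = _ := by
          rw [sum_comm, ent, ← sum_add_distrib]
          refine sum_congr rfl fun z _ => ?_
          simp only [hrc, negMulLog_mul, sum_add_distrib, ← sum_mul, ent, mul_sum]
          rcases (hw0 z).eq_or_lt with h | h
          · simp [← h]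
          · simp only [c, ← sum_div]
            rw [show (∑ S, r S z) = w z from rfl, div_self h.ne', one_mul]
  have hB : ∑ z, w z * ent (psh Γ (c z)) ≤ ent (psh Γ (fun S => ∑ z, r S z)) := by
    simp only [ent, mul_sum]
    rw [sum_comm]
    refine sum_le_sum fun T _ => ?_
    have hJ := concaveOn_negMulLog.le_map_sum (t := univ) (w := w)
      (p := fun z => psh Γ (c z) T) (fun z _ => hw0 z) (by simpa [hw] using h1)
      (fun z _ => psh_nonneg (hc0 z) T)
    simp only [smul_eq_mul] at hJ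
    refine hJ.trans (le_of_eq (congrArg negMulLog ?_))
    simp only [psh, mul_div_assoc', ← sum_div, mul_sum]
    rw [sum_comm]
    simp only [← hrc]
  simp only [gain, mul_add, mul_sub, sum_add_distrib, sum_sub_distrib]
  rw [hsz, mul_sum]
  have : ∑ z, l * (w z * sz (c z)) = ∑ z, w z * (l * sz (c z)) :=
    sum_congr rfl fun z _ => by ring
  rw [this]
  linarith

/-! ### The chain rule -/

section chain
variable (r : Finset X → Finset X → ℝ)

/-- `r` with the second coordinate cut down to `U`. -/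
noncomputable def cutTo (U S z : Finset X) : ℝ := ∑ d, if d ∩ U = z then r S d else 0

/-- Law of `c ∩ U`. -/
noncomputable def piU (U z : Finset X) : ℝ := ∑ S, cutTo r U S z

/-- Probability of `x ∈ V` and `c ∩ U = z`. -/
noncomputable def atU (U : Finset X) (x : X) (z : Finset X) : ℝ :=
  ∑ S, if x ∈ S then cutTo r U S z else 0

/-- Potential of the marginals given `c ∩ U`. -/
noncomputable def Gx (U : Finset X) (x : X) : ℝ :=
  ∑ z ∈ U.powerset, piU r U z * phi (atU r U x z / piU r U z)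

variable {r}

lemma cut_nonneg (hr : ∀ S z, 0 ≤ r S z) (U S z : Finset X) : 0 ≤ cutTo r U S z :=
  sum_nonneg fun d _ => by split_ifs <;> simp [hr S d]

lemma cut_split {U : Finset X} {x : X} (hx : x ∉ U) {z : Finset X} (hz : z ⊆ U) (S : Finset X) :
    cutTo r (insert x U) S z + cutTo r (insert x U) S (insert x z) = cutTo r U S z := by
  unfold cutTo
  rw [← sum_add_distrib]
  refine sum_congr rfl fun d _ => ?_
  have hxz : x ∉ z := fun h => hx (hz h)
  by_cases hxd : x ∈ d
  · have e : d ∩ insert x U = insert x (d ∩ U) := inter_insert_of_mem hxd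
    have n1 : d ∩ insert x U ≠ z := fun h => hxz (h ▸ by simp [hxd])
    have iff2 : d ∩ insert x U = insert x z ↔ d ∩ U = z := by
      rw [e]
      constructor
      · intro h
        have := congrArg (fun s => s.erase x) h
        simpa [erase_insert hxz, erase_insert (show x ∉ d ∩ U by simp [hx])] using this
      · intro h; rw [h]
    simp [n1, iff2]
  · have e : d ∩ insert x U = d ∩ U := inter_insert_of_notMem hxd
    have n2 : d ∩ U ≠ insert x z := fun h => hxd
      (mem_of_mem_inter_left (h ▸ mem_insert_self x z : x ∈ d ∩ U))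
    simp [e, n2]

lemma cut_zero (hsub : ∀ S d, r S d ≠ 0 → d ⊆ S) {U : Finset X} {x : X} {S : Finset X}
    (hxS : x ∉ S) (z : Finset X) : cutTo r (insert x U) S (insert x z) = 0 := by
  refine sum_eq_zero fun d _ => ?_
  split_ifs with h
  · by_contra hne
    exact hxS (hsub S d hne (mem_of_mem_inter_left (h ▸ mem_insert_self x z)))
  · rfl

lemma cut_sum (U S : Finset X) : ∑ z ∈ U.powerset, cutTo r U S z = ∑ d, r S d := by
  unfold cutTo
  rw [sum_comm]
  refine sum_congr rfl fun d _ => ?_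
  rw [sum_ite_eq, if_pos (mem_powerset.2 inter_subset_right)]

lemma atU_le (hr : ∀ S z, 0 ≤ r S z) (U : Finset X) (x : X) (z : Finset X) :
    atU r U x z ≤ piU r U z :=
  sum_le_sum fun S _ => by split_ifs <;> simp [cut_nonneg hr U S z]

lemma atU_nonneg (hr : ∀ S z, 0 ≤ r S z) (U : Finset X) (x : X) (z : Finset X) :
    0 ≤ atU r U x z :=
  sum_nonneg fun S _ => by split_ifs <;> simp [cut_nonneg hr U S z]

lemma piU_nonneg (hr : ∀ S z, 0 ≤ r S z) (U z : Finset X) : 0 ≤ piU r U z :=
  sum_nonneg fun S _ => cut_nonneg hr U S z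

lemma ratio_mem (hr : ∀ S z, 0 ≤ r S z) (U : Finset X) (x : X) (z : Finset X) :
    0 ≤ atU r U x z / piU r U z ∧ atU r U x z / piU r U z ≤ 1 :=
  ⟨div_nonneg (atU_nonneg hr U x z) (piU_nonneg hr U z),
    div_le_one_of_le₀ (atU_le hr U x z) (piU_nonneg hr U z)⟩

/-- Refining the conditioning increases the convex potential. -/
lemma Gx_mono (hr : ∀ S z, 0 ≤ r S z) {U : Finset X} {x : X} (hx : x ∉ U) (y : X) :
    Gx r U y ≤ Gx r (insert x U) y := by
  unfold Gx
  rw [sum_powerset_insert hx, ← sum_add_distrib]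
  refine sum_le_sum fun z hz => ?_
  have hzU := mem_powerset.1 hz
  have eP : piU r (insert x U) z + piU r (insert x U) (insert x z) = piU r U z := by
    simp only [piU, ← sum_add_distrib, cut_split hx hzU]
  have eA : atU r (insert x U) y z + atU r (insert x U) y (insert x z) = atU r U y z := by
    simp only [atU, ← sum_add_distrib]
    refine sum_congr rfl fun S _ => ?_
    split_ifs <;> simp [cut_split hx hzU]
  set s := atU r U y z / piU r U z with hs
  obtain ⟨hs0, hs1⟩ := ratio_mem hr U y z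
  have key : ∀ t, atU r (insert x U) y t ≤ atU r U y z → piU r (insert x U) t ≤ piU r U z →
      piU r (insert x U) t * (phi s)
        + dphi s * (atU r (insert x U) y t - s * piU r (insert x U) t)
      ≤ piU r (insert x U) t * phi (atU r (insert x U) y t / piU r (insert x U) t) := by
    intro t hA hP
    obtain ⟨ht0, ht1⟩ := ratio_mem hr (insert x U) y t
    rcases (piU_nonneg hr (insert x U) t).eq_or_lt with h | h
    · have : atU r (insert x U) y t = 0 :=
        le_antisymm (h ▸ atU_le hr _ y t) (atU_nonneg hr _ y t)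
      simp [← h, this]
    have hzero : s = 0 → atU r (insert x U) y t / piU r (insert x U) t = 0 := by
      intro h0
      have hpz : 0 < piU r U z := h.trans_le hP
      have : atU r U y z = 0 := by
        rcases div_eq_zero_iff.1 h0 with h' | h'
        · exact h'
        · exact absurd h' hpz.ne'
      rw [le_antisymm (this ▸ hA) (atU_nonneg hr _ y t), zero_div]
    have := mul_le_mul_of_nonneg_left (phi_tangent ht0 ht1 hs0 hs1 hzero) h.le
    refine le_of_eq_of_le ?_ this
    simp only [hs]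
    field_simp
  have n1 := piU_nonneg hr (insert x U) z
  have n2 := piU_nonneg hr (insert x U) (insert x z)
  have a1 := atU_nonneg hr (insert x U) y z
  have a2 := atU_nonneg hr (insert x U) y (insert x z)
  have k1 := key z (by linarith) (by linarith)
  have k2 := key (insert x z) (by linarith) (by linarith)
  have hsP : s * piU r U z = atU r U y z := by
    rcases (piU_nonneg hr U z).eq_or_lt with h | h
    · rw [← h, mul_zero]; linarith [atU_le hr U y z, atU_nonneg hr U y z]
    · rw [hs, div_mul_cancel₀ _ h.ne']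
  rw [← eP, ← eA] at hsP
  have hzero : dphi s * ((atU r (insert x U) y z - s * piU r (insert x U) z)
      + (atU r (insert x U) y (insert x z) - s * piU r (insert x U) (insert x z))) = 0 := by
    rw [show (atU r (insert x U) y z - s * piU r (insert x U) z)
      + (atU r (insert x U) y (insert x z) - s * piU r (insert x U) (insert x z)) = 0 by linarith]
    ring
  rw [← eP] at *
  linarith

/-- The chain inequality. -/
lemma chain (hr : ∀ S z, 0 ≤ r S z) (hsub : ∀ S d, r S d ≠ 0 → d ⊆ S)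
    (h1 : ∑ S, ∑ d, r S d = 1) (U : Finset X) :
    2 * ((∑ S, ∑ z ∈ U.powerset, negMulLog (cutTo r U S z)) - ent (fun S => ∑ d, r S d))
      - 1 / 2 * ∑ z ∈ U.powerset, negMulLog (piU r U z)
      - CC / 8 * ∑ x ∈ U, mg (fun d => ∑ S, r S d) x
      - 1 / 4 * ∑ x ∈ U, (Gx r U x - phi (mg (fun S => ∑ d, r S d) x))
    ≤ ∑ x ∈ U, mg (fun S => ∑ d, r S d) x / (1 - log (mg (fun S => ∑ d, r S d) x)) ^ 2 := by
  set p : Finset X → ℝ := fun S => ∑ d, r S d with hp
  set pc : Finset X → ℝ := fun d => ∑ S, r S d with hpc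
  induction U using Finset.induction_on with
  | empty =>
    have e : ∀ S, cutTo r ∅ S ∅ = p S := fun S => by simp [cutTo, p]
    have e2 : piU r ∅ ∅ = 1 := by simp [piU, e, p, h1]
    simp [e, e2, ent]
  | insert x U hx ih =>
    set q := mg p x with hq
    have hp0 : ∀ S, 0 ≤ p S := fun S => sum_nonneg fun d _ => hr S d
    have hq0 : 0 ≤ q := mg_nonneg hp0 x
    have hq1 : q ≤ 1 := mg_le_one hp0 h1 x
    set M : Finset X → ℝ := fun z => piU r (insert x U) (insert x z) with hM
    set Av : Finset X → ℝ := fun z => atU r U x z with hAv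
    set P : Finset X → ℝ := fun z => piU r U z with hP
    set dS : Finset X → ℝ := fun z => ∑ S, (negMulLog (cutTo r (insert x U) S (insert x z))
      + negMulLog (cutTo r U S z - cutTo r (insert x U) S (insert x z))
      - negMulLog (cutTo r U S z)) with hdS
    set dH : Finset X → ℝ := fun z =>
      negMulLog (M z) + negMulLog (P z - M z) - negMulLog (P z) with hdH
    have hstep1 : (∑ S, ∑ z ∈ (insert x U).powerset, negMulLog (cutTo r (insert x U) S z))
        = (∑ S, ∑ z ∈ U.powerset, negMulLog (cutTo r U S z)) + ∑ z ∈ U.powerset, dS z := by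
      simp only [hdS]
      rw [sum_comm (s := U.powerset) (t := univ) (f := fun z S => _ - _), ← sum_add_distrib]
      refine sum_congr rfl fun S _ => ?_
      rw [sum_powerset_insert hx, ← sum_add_distrib, ← sum_add_distrib]
      refine sum_congr rfl fun z hz => ?_
      rw [← cut_split hx (mem_powerset.1 hz) S, add_sub_cancel_right]
      ring
    have hstep2 : (∑ z ∈ (insert x U).powerset, negMulLog (piU r (insert x U) z))
        = (∑ z ∈ U.powerset, negMulLog (piU r U z)) + ∑ z ∈ U.powerset, dH z := by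
      rw [sum_powerset_insert hx, ← sum_add_distrib, ← sum_add_distrib]
      refine sum_congr rfl fun z hz => ?_
      have e : piU r U z = piU r (insert x U) z + M z := by
        simp only [M, piU, ← sum_add_distrib, cut_split hx (mem_powerset.1 hz)]
      simp only [dH, P, e, add_sub_cancel_right]
      ring
    have hMsum : ∑ z ∈ U.powerset, M z = mg pc x := by
      simp only [M, piU, pc, mg, cutTo]
      rw [sum_comm]
      have : ∀ S, ∑ z ∈ U.powerset, ∑ d, (if d ∩ insert x U = insert x z then r S d else 0)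
          = ∑ d, if x ∈ d then r S d else 0 := by
        intro S
        rw [sum_comm]
        refine sum_congr rfl fun d _ => ?_
        by_cases hxd : x ∈ d
        · rw [if_pos hxd, sum_eq_single (d ∩ U)]
          · rw [if_pos (inter_insert_of_mem hxd)]
          · intro z hz hne
            rw [if_neg]
            intro h
            rw [inter_insert_of_mem hxd] at h
            refine hne ?_
            have hxz : x ∉ z := fun h' => hx (mem_powerset.1 hz h')
            have := congrArg (fun s => s.erase x) h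
            simpa [erase_insert hxz, erase_insert (show x ∉ d ∩ U by simp [hx])] using this.symm
          · intro h; exact absurd (mem_powerset.2 inter_subset_right) h
        · rw [if_neg hxd]
          refine sum_eq_zero fun z _ => if_neg fun h => hxd ?_
          exact mem_of_mem_inter_left (h ▸ mem_insert_self x z)
      simp only [this]
      rw [sum_comm]
      refine sum_congr rfl fun d _ => ?_
      split_ifs <;> simp
    have hAsum : ∑ z ∈ U.powerset, Av z = q := by
      simp only [Av, atU, q, p, mg]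
      rw [sum_comm]
      refine sum_congr rfl fun S _ => ?_
      split_ifs <;> simp [cut_sum]
    have hPsum : ∑ z ∈ U.powerset, P z = 1 := by
      simp only [P, piU]
      rw [sum_comm]
      simpa [cut_sum] using h1
    have hper : ∀ z ∈ U.powerset,
        2 * dS z - 1 / 2 * dH z - CC / 8 * M z
          - 1 / 4 * (P z * phi (Av z / P z) - (P z * phi q + dphi q * (Av z - P z * q)))
          - Av z / (1 - log q) ^ 2 ≤ 0 := by
      intro z hz
      have hzU := mem_powerset.1 hz
      have hA0 : 0 ≤ Av z := atU_nonneg hr U x z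
      have hAP : Av z ≤ P z := atU_le hr U x z
      have hM0 : 0 ≤ M z := piU_nonneg hr _ _
      have hk : ∀ S, 0 ≤ cutTo r (insert x U) S (insert x z)
          ∧ cutTo r (insert x U) S (insert x z) ≤ cutTo r U S z := fun S =>
        ⟨cut_nonneg hr _ _ _, by rw [← cut_split hx hzU S]; linarith [cut_nonneg hr (insert x U) S z]⟩
      have hMA : M z ≤ Av z := by
        refine sum_le_sum fun S _ => ?_
        split_ifs with hS
        · exact (hk S).2
        · rw [cut_zero hsub hS]
      have hAq : Av z ≤ q :=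
        hAsum ▸ single_le_sum (f := Av) (fun z _ => atU_nonneg hr U x z) hz
      rcases hA0.eq_or_lt with hA | hA
      · have hM' : M z = 0 := le_antisymm (hA ▸ hMA) hM0
        have hd : dS z = 0 := by
          refine sum_eq_zero fun S _ => ?_
          have : cutTo r (insert x U) S (insert x z) = 0 := le_antisymm
            (hM' ▸ single_le_sum (fun S _ => cut_nonneg hr _ S _) (mem_univ S)) (hk S).1
          simp [this]
        simp only [hd, dH, hM', negMulLog_zero, sub_zero, ← hA, zero_div, phi_zero]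
        have : P z * phi q + dphi q * (0 - P z * q) = -(P z * (q / (1 - log q) ^ 2)) := by
          have := one_le_den hq0 hq1
          rw [phi, dphi]; field_simp; ring
        rw [this]
        have : 0 ≤ P z * (q / (1 - log q) ^ 2) := mul_nonneg (hA0.trans hAP) (by positivity)
        simp only [mul_zero]
        linarith
      have hPz : 0 < P z := hA.trans_le hAP
      have hq' : 0 < q := hA.trans_le hAq
      have ha1 : Av z / P z ≤ 1 := (div_le_one hPz).2 hAP
      rcases hM0.eq_or_lt with hMz | hMz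
      · have hd : dS z = 0 := by
          refine sum_eq_zero fun S _ => ?_
          have : cutTo r (insert x U) S (insert x z) = 0 := le_antisymm
            (hMz.symm ▸ single_le_sum (fun S _ => cut_nonneg hr _ S _) (mem_univ S)) (hk S).1
          simp [this]
        have ht := mul_le_mul_of_nonneg_left (phi_tangent (div_pos hA hPz).le ha1 hq0 hq1
          (fun h => absurd h hq'.ne')) hPz.le
        have e : P z * (phi q + dphi q * (Av z / P z - q))
            = P z * phi q + dphi q * (Av z - P z * q) := by field_simp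
        rw [e] at ht
        simp only [hd, dH, ← hMz, negMulLog_zero, sub_zero, mul_zero]
        have : 0 ≤ Av z / (1 - log q) ^ 2 := by positivity
        linarith
      set e := M z / Av z with he
      have he0 : 0 < e := div_pos hMz hA
      have hS : dS z ≤ M z * (1 - log e) := by
        calc dS z ≤ ∑ S, (cutTo r (insert x U) S (insert x z) * (-log e)
              + e * (if x ∈ S then cutTo r U S z else 0)) := by
              refine sum_le_sum fun S _ => ?_
              split_ifs with hxS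
              · exact split_upper (hk S).1 (hk S).2 he0
              · simp [cut_zero hsub hxS]
          _ = M z * (-log e) + e * Av z := by
              rw [sum_add_distrib, ← sum_mul, ← mul_sum]; rfl
          _ = _ := by rw [he, div_mul_cancel₀ _ hA.ne']; ring
      have hH : M z * (-log (Av z / P z) - log e) ≤ dH z := by
        refine le_of_eq_of_le ?_ (split_lower hM0 (hMA.trans hAP))
        rw [he, log_div hA.ne' hPz.ne', log_div hMz.ne' hA.ne']
        ring
      have hp' := mul_le_mul_of_nonneg_left (pointwise (div_pos hA hPz) ha1 hq' hq1 he0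
        ((div_le_one hA).2 hMA)) hPz.le
      have eM : P z * (Av z / P z * e) = M z := by rw [he]; field_simp
      have el : P z * (2 * (Av z / P z * e * (1 - log e))
          - 1 / 2 * (Av z / P z * e * (-log (Av z / P z) - log e))
          - CC / 8 * (Av z / P z * e))
          = 2 * (M z * (1 - log e)) - 1 / 2 * (M z * (-log (Av z / P z) - log e))
            - CC / 8 * M z := by
        rw [← eM]; ring
      have er : P z * (1 / 4 * (phi (Av z / P z) - (phi q + dphi q * (Av z / P z - q)))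
          + Av z / P z / (1 - log q) ^ 2)
          = 1 / 4 * (P z * phi (Av z / P z) - (P z * phi q + dphi q * (Av z - P z * q)))
            + Av z / (1 - log q) ^ 2 := by field_simp
      rw [el, er] at hp'
      linarith
    have hsum := sum_nonpos hper
    simp only [sum_sub_distrib, sum_add_distrib, ← mul_sum, ← sum_div, ← sum_mul, hMsum, hAsum,
      hPsum, one_mul, sub_self, mul_zero, add_zero] at hsum
    have hG : ∑ z ∈ U.powerset, P z * phi (Av z / P z) ≤ Gx r (insert x U) x := Gx_mono hr hx x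
    have hGo : ∑ y ∈ U, Gx r U y ≤ ∑ y ∈ U, Gx r (insert x U) y :=
      sum_le_sum fun y _ => Gx_mono hr hx y
    rw [hstep1, hstep2]
    simp only [sum_insert hx, sum_sub_distrib] at ih ⊢
    linarith

end chain

/-! ### The bound -/

lemma gain_le_ent {Q : ℝ} (hQ : 0 < Q) {A : Finset X} (hA : Thin Γ Q A) {p : Finset X → ℝ}
    (hp : IsD A p) : gain Γ (-log Q) p ≤ ent p := by
  have := ent_psh_ge hQ hA hp
  unfold gain
  linarith

theorem gain_bound {Q : ℝ} (hQ : 0 < Q) {A : Finset X} (hA : Thin Γ Q A) {p : Finset X → ℝ}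
    (hp : IsD A p) : gain Γ (-log Q) p ≤ CC * sz p := by
  set l := -log Q with hl
  set K : Set ℝ := {t | ∃ p, IsD A p ∧ t = gain Γ l p - Fp p} with hK
  have hbdd : BddAbove K := by
    refine ⟨Fintype.card (Finset X), ?_⟩
    rintro t ⟨p, hp, rfl⟩
    have h1 := gain_le_ent hQ hA hp
    have h2 : ent p ≤ (Fintype.card (Finset X) : ℝ) := by
      calc ent p ≤ ∑ _S : Finset X, (1 : ℝ) :=
            sum_le_sum fun S _ => (negMulLog_le_one_sub_self (hp.1 S)).trans (by linarith [hp.1 S])
        _ = _ := by simp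
    rw [← hl] at h1
    linarith [Fp_nonneg hp.1 hp.2.1]
  have hne : K.Nonempty := ⟨_, p, hp, rfl⟩
  have hup : ∀ p, IsD A p → gain Γ l p ≤ Fp p + sSup K := fun p hp => by
    linarith [le_csSup hbdd ⟨p, hp, rfl⟩]
  suffices hS : sSup K ≤ 0 by linarith [hup p hp, Fp_le hp.1 hp.2.1]
  refine le_of_forall_pos_le_add fun ε hε => ?_
  rw [zero_add]
  obtain ⟨_, ⟨v, hv, rfl⟩, hnear⟩ := exists_lt_of_lt_csSup hne
    (show sSup K - ε / 9 < sSup K by linarith)
  obtain ⟨h0, h1, h2⟩ := hv
  have hv : IsD A v := ⟨h0, h1, h2⟩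
  have hr0 := rj_nonneg (Γ := Γ) h0
  have hrow : (fun S => ∑ d, rj Γ v S d) = v := funext (rj_row h0 h1)
  have hrc := rc_isD (Γ := Γ) hv
  have hz := hrc.2.1
  have hwsum := sz_rc (Γ := Γ) h0 h1
  -- doubling
  have hstar := star (Γ := Γ) h0 h1
  have hcond := cond_ent (Γ := Γ) h0 h1
  have hthin := ent_psh_ge hQ hA hrc
  rw [psh_rc h0 h1, ← hl] at hthin
  set Hcv := (∑ S, ∑ d, negMulLog (rj Γ v S d)) - ent v with hHcv
  have hd1 : 2 * gain Γ l v ≤ gain Γ l (uni v) + 2 * Hcv + (l * sz (rc Γ v) - ent (Zl Γ v)) := by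
    have := sz_uni (p := v) h1
    unfold gain
    rw [this, hwsum]
    linarith
  have hd2 : 2 * gain Γ l v ≤ gain Γ l (uni v) + 2 * Hcv := by linarith
  have hgc : l * sz (rc Γ v) - ent (Zl Γ v) = gain Γ l (rc Γ v) - ent (rc Γ v) := by
    unfold gain; rw [psh_rc h0 h1]; ring
  have hgc2 : gain Γ l (rc Γ v) ≤ CC * sz (rc Γ v) + sSup K := by
    linarith [hup _ hrc, Fp_le hrc.1 hrc.2.1]
  have hgu : gain Γ l (uni v) ≤ CC * sz (uni v) - ∑ x, phi (2 * mg v x - mg v x ^ 2) + sSup K := by
    have := hup _ (uni_isD hv)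
    simp only [Fp, mg_uni h1] at this
    exact this
  -- conditioning
  have hmix := gain_mixture (Γ := Γ) l (rj Γ v) hr0 hz
  rw [hrow] at hmix
  set GE := ∑ x, Gx (rj Γ v) univ x with hGE
  have hcut : ∀ S z, cutTo (rj Γ v) univ S z = rj Γ v S z := by
    intro S z; simp [cutTo]
  have hpiU : ∀ z, piU (rj Γ v) univ z = rc Γ v z := by intro z; simp [piU, rc, hcut]
  have hmix2 : gain Γ l v ≤ ent (rc Γ v) + (CC * sz v - GE + sSup K) := by
    refine hmix.trans (add_le_add le_rfl ?_)
    set c : Finset X → Finset X → ℝ := fun z S => rj Γ v S z / ∑ S', rj Γ v S' z with hc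
    have hbound : ∀ z, rc Γ v z * gain Γ l (c z) ≤ rc Γ v z * (CC * sz (c z))
        - ∑ x, rc Γ v z * phi (mg (c z) x) + rc Γ v z * sSup K := by
      intro z
      rcases (hrc.1 z).eq_or_lt with h | h
      · simp [← h]
      have hd : IsD A (c z) := by
        refine ⟨fun S => div_nonneg (hr0 S z) (hrc.1 z), ?_, fun S hS => ?_⟩
        · simp only [c, ← sum_div]
          exact div_self h.ne'
        · exact h2 S (left_ne_zero_of_mul
            (show rj Γ v S z ≠ 0 from fun h0' => hS (by simp [c, h0'])))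
      rw [← mul_sum, ← mul_sub, ← mul_add]
      exact mul_le_mul_of_nonneg_left (hup _ hd) h.le
    refine le_trans (sum_le_sum (g := fun z => rc Γ v z * (CC * sz (c z))
      - ∑ x, rc Γ v z * phi (mg (c z) x) + rc Γ v z * sSup K) fun z _ => hbound z) (le_of_eq ?_)
    rw [sum_add_distrib, sum_sub_distrib, ← sum_mul, hz, one_mul]
    congr 2
    · have : ∀ z, rc Γ v z * (CC * sz (c z)) = CC * ∑ S, rj Γ v S z * (S.card : ℝ) := by
        intro z
        rw [mul_left_comm, sz, mul_sum]
        congr 1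
        refine sum_congr rfl fun S _ => ?_
        rcases (hrc.1 z).eq_or_lt with h | h
        · have : rj Γ v S z = 0 := le_antisymm
            (h ▸ single_le_sum (f := fun S => rj Γ v S z) (fun S _ => hr0 S z) (mem_univ S))
            (hr0 S z)
          simp [← h, this]
        · simp only [c]
          rw [show (∑ S', rj Γ v S' z) = rc Γ v z from rfl]
          field_simp
      simp only [this]
      rw [← mul_sum, sum_comm]
      simp only [← sum_mul, rj_row (Γ := Γ) h0 h1]
      rfl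
    · rw [sum_comm, hGE]
      refine sum_congr rfl fun x _ => ?_
      unfold Gx
      rw [powerset_univ]
      refine sum_congr rfl fun z _ => ?_
      rw [hpiU]
      congr 2
      simp only [atU, hcut, mg, c]
      rw [show (∑ S', rj Γ v S' z) = rc Γ v z from rfl, sum_div]
      refine sum_congr rfl fun S _ => ?_
      split_ifs <;> simp
  -- the chain inequality
  have hch := chain hr0 (fun S d h => rj_subset h)
    (by simp only [rj_row (Γ := Γ) h0 h1, h1]) (univ : Finset X)
  simp only [powerset_univ, hcut, hpiU, hrow, sum_sub_distrib] at hch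
  rw [show (fun d => ∑ S, rj Γ v S d) = rc Γ v from rfl, ← sz_eq, ← hGE] at hch
  have hslack : ∑ x, mg v x / (1 - log (mg v x)) ^ 2
      ≤ ∑ x, phi (2 * mg v x - mg v x ^ 2) - 2 * ∑ x, phi (mg v x)
        + CC / 8 * ∑ x, mg v x ^ 2 := by
    rw [mul_sum, mul_sum, ← sum_sub_distrib, ← sum_add_distrib]
    refine sum_le_sum fun x _ => ?_
    have := phi_double (mg_nonneg h0 x) (mg_le_one h0 h1 x)
    have hsq := mul_le_mul_of_nonneg_right (show (2 : ℝ) ≤ CC / 8 by norm_num [CC])
      (sq_nonneg (mg v x))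
    linarith
  have hent : ent (rc Γ v) = ∑ z, negMulLog (rc Γ v z) := rfl
  have hHv : ∑ S, negMulLog (v S) = ent v := rfl
  rw [hgc] at hd1
  rw [sz_uni h1] at hgu
  rw [hwsum] at hgc2 hch
  simp only [Fp] at hnear
  linarith

/-- Spreadness with an absolute constant. -/
theorem spread {Q : ℝ} (hQ : 0 < Q) {A : Finset X} (hA : Thin Γ Q A) (S : Finset X) :
    pr Γ S A ≤ (exp CC * Q) ^ S.card := by
  classical
  rcases (pr_nonneg (Γ := Γ) S A).eq_or_lt with h | hpos
  · rw [← h]; positivity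
  set I : Finset (Finset X) :=
    ((univ : Finset Γ).image fun g => g • S).filter fun T => T ⊆ A with hI
  have hmemI : ∀ {T}, T ∈ I ↔ (∃ g : Γ, g • S = T) ∧ T ⊆ A := by
    intro T; simp [hI]
  obtain ⟨g₀, hg₀⟩ : ∃ g : Γ, g • S ⊆ A :=
    (pr_eq_zero_or (Γ := Γ) S A).resolve_left hpos.ne'
  have hIpos : (0 : ℝ) < I.card := by
    exact_mod_cast card_pos.2 ⟨_, hmemI.2 ⟨⟨g₀, rfl⟩, hg₀⟩⟩
  set p : Finset X → ℝ := fun T => if T ∈ I then 1 / (I.card : ℝ) else 0 with hp
  have hpD : IsD A p := by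
    refine ⟨fun T => ?_, ?_, fun T hT => ?_⟩
    · simp only [p]; split_ifs <;> positivity
    · simp only [p, sum_ite_mem, univ_inter, sum_const, nsmul_eq_mul]
      field_simp
    · by_contra h
      exact hT (if_neg fun h' => h (hmemI.1 h').2)
  have hcard : ∀ {T}, T ∈ I → T.card = S.card := by
    intro T hT
    obtain ⟨⟨g, rfl⟩, -⟩ := hmemI.1 hT
    exact card_smul_finset g S
  have hsz : sz p = S.card := by
    simp only [sz, p, ite_mul, zero_mul, sum_ite_mem, univ_inter]
    rw [sum_congr rfl (g := fun _ => 1 / (I.card : ℝ) * (S.card : ℝ)) fun T hT => by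
      rw [hcard hT], sum_const, nsmul_eq_mul]
    field_simp
  have hentp : ent p = log (I.card : ℝ) := by
    have e : ∀ T, negMulLog (p T) = if T ∈ I then negMulLog (1 / (I.card : ℝ)) else 0 := by
      intro T
      simp only [p]
      split_ifs <;> simp
    simp only [ent, e, sum_ite_mem, univ_inter, sum_const, nsmul_eq_mul]
    simp only [negMulLog, one_div, log_inv]
    field_simp
  have hporb : ∀ g : Γ, psh Γ p (g • S) = pr Γ S A / (I.card : ℝ) := by
    intro g
    rw [psh_smul]
    unfold psh pr cnt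
    rw [div_right_comm]
    congr 1
    simp only [p, ← sum_filter, sum_const, nsmul_eq_mul, mul_one_div]
    congr 2
    refine card_equiv (Equiv.inv Γ) fun a => ?_
    simp only [mem_filter, mem_univ, true_and, Equiv.inv_apply]
    exact ⟨fun h => (hmemI.1 h).2, fun h => hmemI.2 ⟨⟨a⁻¹, rfl⟩, h⟩⟩
  have hentP : ent (psh Γ p) = -log (pr Γ S A / (I.card : ℝ)) := by
    have e : ent (psh Γ p) = ∑ T, psh Γ p T * (-log (psh Γ p T)) :=
      sum_congr rfl fun T _ => by simp [negMulLog]
    rw [e, psh_pair_inv p _ (fun g T => by rw [psh_smul])]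
    simp only [p, ite_mul, zero_mul, sum_ite_mem, univ_inter]
    rw [sum_congr rfl (g := fun _ => 1 / (I.card : ℝ) * (-log (pr Γ S A / (I.card : ℝ))))
      fun T hT => by obtain ⟨⟨g, rfl⟩, -⟩ := hmemI.1 hT; exact congrArg _ (by rw [← hporb g]),
      sum_const, nsmul_eq_mul]
    field_simp
  have h := gain_bound hQ hA hpD
  unfold gain at h
  rw [hsz, hentp, hentP, log_div hpos.ne' hIpos.ne'] at h
  rw [← exp_log hpos, ← exp_log (show 0 < (exp CC * Q) ^ S.card by positivity), exp_le_exp,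
    log_pow, log_mul (exp_pos _).ne' hQ.ne', log_exp]
  linarith

end Vale.Agent.P064.Sharp
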