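import Mathlib
import Vale.Agent.P064.Main
import Vale.Agent.P064.Sharp

/-!
`p̃_E = O(p_E)` and `p_c = O(p_E log n)`.
-/

namespace Vale.Agent.P064
open Finset
open scoped Pointwise Classical

set_option linter.unusedSectionVars false

variable {n : ℕ} {W : Type}

theorem full_bounds :
    ∃ C : ℝ, 0 < C ∧ ∀ n : ℕ, 2 ≤ n → ∀ (W : Type) [Fintype W] (H : SimpleGraph W),
      Fintype.card W ≤ n → H.edgeSet.Nonempty →
        pEtilde n H ≤ C * pE n H ∧ pc n H ≤ C * pE n H * Real.log n := by
  set D : ℝ := Real.exp Sharp.CC * 2 with hD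
  have hD1 : 1 ≤ D := by
    have : 1 ≤ Real.exp Sharp.CC := Real.one_le_exp (by norm_num [Sharp.CC])
    linarith
  have hD0 : 0 < D := by linarith
  refine ⟨640 * D, by positivity, ?_⟩
  intro n hn W _ H hW _
  obtain ⟨e⟩ := Function.Embedding.nonempty_of_card_le (α := W) (β := Fin n) (by simpa using hW)
  obtain ⟨hlog0, -, hK, -⟩ := log_bounds hn
  have hE := pE_nonneg (H := H) e
  have hln : (1 : ℝ) ≤ 640 * Real.log n := by
    have h1 : Real.log 2 ≤ Real.log n := Real.log_le_log (by norm_num) (by exact_mod_cast hn)
    linarith [Real.log_two_gt_d9]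
  have hone : ∀ S : Finset (Edge n), pr (Equiv.Perm (Fin n)) S (base H e) ≤ (1 : ℝ) ^ S.card := by
    intro S
    rw [one_pow, pr, div_le_one card_pos_real]
    exact_mod_cast card_le_univ _
  have htilde1 : pEtilde n H ≤ 1 := pEtilde_le ⟨zero_le_one, le_rfl⟩ fun F => by
    have := copyCount_le_expCopies e zero_le_one le_rfl hone F
    have : (0 : ℝ) ≤ H.copyCount F.coe := Nat.cast_nonneg _
    linarith
  have hpc1 : pc n H ≤ 1 := pc_le ⟨zero_le_one, le_rfl⟩ (probContains_one e)
  -- at a feasible density
  have key : ∀ q, pE n H < q → pEtilde n H ≤ D * q ∧ pc n H ≤ 640 * Real.log n * (D * q) := by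
    intro q hq
    have hq0 : 0 < q := lt_of_le_of_lt hE hq
    have hDq : 0 < D * q := by positivity
    by_cases hq1 : q ≤ 1
    · obtain ⟨-, hthin⟩ := thin_of_gt_pE e hq hq1
      have hsp : ∀ S, pr (Equiv.Perm (Fin n)) S (base H e) ≤ (D * q) ^ S.card := fun S =>
        (Sharp.spread (by positivity) hthin S).trans (le_of_eq (by rw [hD]; ring))
      constructor
      · by_cases h1 : D * q ≤ 1
        · refine pEtilde_le ⟨hDq.le, h1⟩ fun F => ?_
          have := copyCount_le_expCopies e hDq.le h1 hsp F
          have : (0 : ℝ) ≤ H.copyCount F.coe := Nat.cast_nonneg _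
          linarith
        · exact htilde1.trans (le_of_not_ge h1)
      · by_cases h1 : 640 * Real.log n * (D * q) ≤ 1
        · have hk : (base H e).card ≤ 2 ^ (2 * Nat.clog 2 n + 1) - 1 := by
            have := card_base_le H e
            have := Nat.one_le_two_pow (n := 2 * Nat.clog 2 n)
            rw [pow_succ]; omega
          have h64 : 64 * (D * q) ≤ 1 := by
            have : Real.log 2 ≤ Real.log n := Real.log_le_log (by norm_num) (by exact_mod_cast hn)
            nlinarith [Real.log_two_gt_d9]
          refine pc_le ⟨by positivity, h1⟩ (probContains_ge e hDq h64 _ hk hsp ?_ h1)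
          push_cast at hK ⊢
          nlinarith
        · exact hpc1.trans (le_of_not_ge h1)
    · have hq1' : 1 ≤ D * q := by nlinarith
      exact ⟨htilde1.trans hq1', hpc1.trans (one_le_mul_of_one_le_of_one_le hln hq1')⟩
  constructor
  · have hlim : pEtilde n H ≤ D * pE n H := by
      refine le_of_forall_pos_le_add fun ε hε => ?_
      have := (key (pE n H + ε / D) (lt_add_of_pos_right _ (by positivity))).1
      rw [mul_add, mul_div_cancel₀ ε hD0.ne'] at this
      exact this
    nlinarith [mul_nonneg hD0.le hE]
  · have hM : 0 < 640 * Real.log n * D := by positivity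
    have hlim : pc n H ≤ 640 * Real.log n * D * pE n H := by
      refine le_of_forall_pos_le_add fun ε hε => ?_
      have := (key (pE n H + ε / (640 * Real.log n * D))
        (lt_add_of_pos_right _ (by positivity))).2
      rw [← mul_assoc, mul_add, mul_div_cancel₀ ε hM.ne'] at this
      exact this
    exact hlim.trans (le_of_eq (by ring))

end Vale.Agent.P064
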